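import Vale.Agent.P216.H140.RCls
import Vale.Agent.P216.H133C.ThomOut
import Vale.Agent.P216.C313.LowMain

/-!
# P216-C, block C12-MID: definitions and exact statements of the pieces
-/

open Set Finsupp BoundedContinuousFunction

namespace Vale.Agent.P216.H140

open Vale.Agent.P216.AS Vale.Agent.P216.PS Vale.Agent.P216.Sl Vale.Agent.P216.H901
open Vale.Agent.P216.H83 Vale.Agent.P216.H133C Vale.Agent.P216.H456 Vale.Agent.P216.MV337
open Vale.Agent.P216.N929 (Coc Fine fibI one1)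

section

variable {k : Type} [Field k] {M : Type} [MetricSpace M]

/-- `(w, σ) ↦ w σ` -/
def evw (p : (ℝ →ᵇ M) × ℝ) : M := p.1 p.2

/-- The class `η` : the fibre integral over `σ ∈ [0, ∞)` of `ξ (w σ)`, mesh `1 / (N + 1)`. -/
noncomputable def eta (N : ℕ) (ξ : List M → k) : List (ℝ →ᵇ M) → k :=
  fibI (1 / ((N : ℝ) + 1)) fun L => ξ (L.map evw)

/-- The relative classes `κ j ~ ξ ^ j`. -/
structure KSeq (k : Type) [Field k] {M : Type} [MetricSpace M] {d h : ℕ} (C : CellDec M d h) where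
  ξ : List M → k
  κ : ℕ → List M → k
  μ : ℕ → List M → k
  ε : ℝ
  hε : 0 < ε
  nξ : Nrm ξ
  nκ : ∀ j, Nrm (κ j)
  nμ : ∀ j, Nrm (μ j)
  cξ : Coc (univ : Set M) ε d ξ
  κ0 : κ 0 = one1 k M
  κs : ∀ j, κ (j + 1) = fun l => N929.cup d ξ (κ j) l - dl (μ (j + 1)) l
  cκ : ∀ j, CocL (univ : Set M) (d * j) (κ j)
  /-- `κ j` vanishes on the small lists of `L j` -/
  vκ : ∀ j, j ≤ h → VanL (C.L j) (d * j + 1) (κ j)
  /-- `μ (j + 1)` vanishes on the small lists of `L j` -/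
  vμ : ∀ j, j ≤ h → VanL (C.L j) (d * (j + 1)) (μ (j + 1))
  /-- `ξ ∪ κ j = dl (μ (j + 1))` on the small lists of `L (j + 1)` -/
  vs : ∀ j, j ≤ h → VanL (C.L (j + 1)) (d * (j + 1) + 1) (κ (j + 1))
  ne : ∀ j, j ≤ h → ¬ ExL (C.L (j + 1)) (d * j) (κ j)

end

/-- **[E]** the properties of `η`. -/
def EtaOut : Prop := ∀ (k M : Type) [Field k] [MetricSpace M] [CompactSpace M] (d N : ℕ) (ε : ℝ)
  (ξ : List M → k), 2 ≤ d → 0 < ε → Nrm ξ → Coc (univ : Set M) ε d ξ →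
  1 / ((N : ℝ) + 1) < ε / 4 →
  Nrm (eta N ξ) ∧
  (∀ (b : M) (T : ℝ) (l : List (ℝ →ᵇ M)), l.length = d + 1 → Fine (PF b T) (ε / 4) l →
    dl (eta N ξ) l = (-1) ^ d * ξ (l.map evz)) ∧
  (∀ (a b : M) (T : ℝ), Coc (P a b T) (ε / 4) (d - 1) (eta N ξ)) ∧
  -- a constant part of duration `m` in front
  (∀ (m : ℕ) (c : ℝ → M) (G : (ℝ →ᵇ M) → ℝ →ᵇ M) (l : List (ℝ →ᵇ M)), 2 ≤ l.length →
    (∀ w ∈ l, (∀ u : ℝ, 0 ≤ u → u ≤ m → G w u = c u) ∧ ∀ u : ℝ, m ≤ u → G w u = w (u - m)) →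
    eta N ξ (l.map G) = eta N ξ l) ∧
  -- a constant part after the time `m`
  (∀ (m : ℕ) (c c' : ℝ → M) (G : (ℝ →ᵇ M) → ℝ →ᵇ M) (l : List (ℝ →ᵇ M)), 2 ≤ l.length →
    (∀ w ∈ l, (∀ u : ℝ, 0 ≤ u → u ≤ m → G w u = w u) ∧
      ∀ u : ℝ, m ≤ u → G w u = c u ∧ w u = c' u) →
    eta N ξ (l.map G) = eta N ξ l)

/-- **[C01]** the relative cohomology of one step of the filtration. -/
def RelCell : Prop := ∀ (M : Type) [MetricSpace M] [CompactSpace M] (d h : ℕ) (C : CellDec M d h)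
  (k : Type) [Field k], (2 : k) ≠ 0 → ∀ j, j ≤ h → ∀ q, q ≠ d * j →
  ∀ x : Hr (tr M) (on k) (C.L (j + 1)) (C.L j) q, x = 0

/-- **[EX]** excision of the handle, for list cochains. -/
def ExcL : Prop := ∀ (M : Type) [MetricSpace M] [CompactSpace M] (d h : ℕ) (C : CellDec M d h)
  (k : Type) [Field k], (2 : k) ≠ 0 → ∀ j, j ≤ h → ∀ (m : ℕ) (f : List M → k),
  CocR (C.L (j + 1)) (C.L j) m f → ExR (C.D j) (C.D j ∩ C.L j) m f →
  ExR (C.L (j + 1)) (C.L j) m f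

/-- **[KS]** the classes `κ j`. -/
def KSeqOut : Prop := ∀ (M : Type) [MetricSpace M] [CompactSpace M] (d h : ℕ)
  (C : CellDec M d h), 1 ≤ d → RingOut M C → ∀ (k : Type) [Field k], (2 : k) ≠ 0 →
  Nonempty (KSeq k C)

end Vale.Agent.P216.H140
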