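import Vale.Agent.P216.H140.RCls
import Vale.Agent.P216.H456C.CellSp
import Vale.Agent.P216.H901.Fam
import Vale.Agent.P216.H456.PCon

/-!
# P216-C, block C12-MID: classes over the handle of index `0`

`stepA`: `D` a handle of index `0` with tracks of time `c` to `a`. If a cocycle `f` on the paths to
`q` which start in `D` becomes exact after the composition with `z ↦ (fixed track) · z`,
`z ∈ P a q s`, then `f` is exact on the paths of duration `r`, `r + c ≤ s`.
-/

set_option linter.all false

open Set BoundedContinuousFunction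

namespace Vale.Agent.P216.H140

open Vale.Agent.P216.AS Vale.Agent.P216.H901 Vale.Agent.P216.H83 Vale.Agent.P216.Sl
open Vale.Agent.P216.H456 Vale.Agent.P216.H456C Vale.Agent.P216.MV337 Vale.Agent.P216.H133C
open Vale.Agent.P216.PS

variable {M : Type} [MetricSpace M] [CompactSpace M] {k : Type} [Field k]

theorem vanL_of_empty {E : Type} [PseudoMetricSpace E] {A : Set E} (hA : A = ∅) {n : ℕ}
    {f : List E → k} : VanL A (n + 1) f := by
  subst hA
  exact vanL_empty

theorem stepA {D S : Set M} (C : Cell M 0 D S) (hD : IsClosed D) (hS : S = ∅) {a q : M}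
    {T : M → ℝ → M} {c : ℝ} (hT : Tr D a c T) {f : List (ℝ →ᵇ M) → k} {m : ℕ} {r s t : ℝ}
    (hr : 0 < r) (h₁ : r + c ≤ s) (h₂ : s + c ≤ t)
    (hf : CocL (ovr evz (fun t => PF q t) D t) m f)
    (hg : ExL (P a q s) m fun l => f (l.map fun z => lback T c (C.ψ Fin.elim0, z))) :
    ExL (ovr evz (fun t => PF q t) D r) m f := by
  have hc : 0 ≤ c := hT.nonneg
  have hs : 0 < s := by linarith
  have hrt : r ≤ t := by linarith
  have hSD : S ⊆ D := by rw [hS]; exact empty_subset _
  let SI := cellPF q C hD hSD hT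
  have eS : ∀ t, ovr evz (fun t => PF q t) S t = ∅ := by
    intro t
    subst hS
    ext w
    exact ⟨fun h => h.2.elim, fun h => h.elim⟩
  have mA : Mono (ovr evz (fun t => PF q t) D) := fun s t _ h => ovr_mono (PF_mono h) subset_rfl
  have mA' : Mono (ovr evz (fun t => PF q t) S) := fun s t _ h => ovr_mono (PF_mono h) subset_rfl
  have mB : Mono (fun t => cub 0 (P a q t)) := fun s t _ h => P_mono h
  have mB' : Mono (fun t => bdc 0 (P a q t)) := fun s t _ h => subset_rfl
  have hAA : ∀ t, ovr evz (fun t => PF q t) S t ⊆ ovr evz (fun t => PF q t) D t := fun t =>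
    ovr_mono subset_rfl hSD
  have hBB : ∀ t, bdc 0 (P a q t) ⊆ cub 0 (P a q t) := fun t => empty_subset _
  have hfR : CocR (ovr evz (fun t => PF q t) D t) (ovr evz (fun t => PF q t) S t) m f :=
    ⟨hf, vanL_of_empty (eS t)⟩
  have key := SI.pf_pf (k := k) mA mA' mB mB' hAA hBB hc m r s t hr hs h₁ h₂ hrt
    (clsR (tr _) (on k) f hfR)
  have e1 : SI.symm.pf k mA mA' hBB hc m s t hs h₂ (clsR (tr _) (on k) f hfR) =
      clsR (tr _) (on k) _ (hfR.map (SI.symm.map_f mA hc hs h₂) (hBB s)
        (SI.symm.sub_f mA' hc hs h₂)) := pullR_clsR _ _ _ _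
  have e2 : clsR (tr _) (on k) _ (hfR.map (SI.symm.map_f mA hc hs h₂) (hBB s)
        (SI.symm.sub_f mA' hc hs h₂)) = 0 := by
    rw [clsR_eq_zero]
    obtain ⟨g, hg0, ε, hε, h⟩ := hg
    refine ⟨g, hg0, ?_, ε, hε, fun l hl hs => ?_⟩
    · rcases m with _ | m
      · exact ⟨1, one_pos, fun l _ _ => hg0 rfl l⟩
      · exact vanL_of_empty rfl
    · refine Eq.trans ?_ (h l hl hs)
      refine congrArg f ?_
      refine List.map_congr_left (f := SI.symm.f s) fun z _ => ?_
      change lback T c (C.ψ (dec2 0 z), z) = _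
      rw [Subsingleton.elim (dec2 0 z) Fin.elim0]
  rw [e1, e2, map_zero] at key
  have e3 : clsR (tr _) (on k) f (hfR.mono (mA r t hr hrt) (mA' r t hr hrt)) = 0 := key.symm
  exact (clsR_eq_zero.1 e3).exL

end Vale.Agent.P216.H140
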