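import Vale.Agent.P216.H901.PM

/-!
# P216-C, block C12-MID: the ladder of the path fibration over the cells (abstract part)

`H j q` = `H^q(E_j)`, `E_j` = the paths whose free end is in `M_j` (`M_0` = point, so `H 0 q` is the
cohomology of the path space `Ω_t`), `R j q` = `H^q(E_{j+1}, E_j)`, which is `H^{q-(j+1)d}(Ω_t)` up
to a bounded shift, `d = e + 1`.

* `Lad.mid`: if `E_h` is acyclic and `δ(A_j) ≠ 0` (this is `x^{j+1} ≠ 0`) then `H^q(Ω_t)` is
  ephemeral for `0 < q < (h+1)d-2`, `q ≠ e`.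
* `Lad.low_rk1`: `H^e(Ω_t)` has rank at most one up to a shift.
* `Lad.inj`: `H^{(h+1)d-2}(E_{h-1}) → H^{(h+1)d-2}(Ω_t)` is injective up to a shift.
-/

namespace Vale.Agent.P216.H140

open H901

variable {k : Type} [Field k]

/-- Two classes are linearly dependent after a restriction by `B`. -/
def Rk1 (A : PM k) (B : ℝ) : Prop :=
  ∀ s t (hs : 0 < s) (h : s ≤ t), s + B ≤ t → ∀ x y, ∃ a b : k, (a ≠ 0 ∨ b ≠ 0) ∧
    a • A.ρ s t hs h x + b • A.ρ s t hs h y = 0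

theorem eph_mono {A : PM k} {B B' : ℝ} (h : A.Eph B) (hB : B ≤ B') : A.Eph B' :=
  fun s t hs hst hle x => h s t hs hst (by linarith) x

theorem Rk1.mono {A : PM k} {B B' : ℝ} (h : Rk1 A B) (hB : B ≤ B') : Rk1 A B' :=
  fun s t hs hst hle x y => h s t hs hst (by linarith) x y

/-- The exact sequences of a filtration `E_0 ⊆ E_1 ⊆ ...`. -/
structure Lad (k : Type) [Field k] where
  H : ℕ → ℕ → PM k
  R : ℕ → ℕ → PM k
  α : ∀ j q t, 0 < t → (R j q).V t →ₗ[k] (H (j + 1) q).V t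
  β : ∀ j q t, 0 < t → (H (j + 1) q).V t →ₗ[k] (H j q).V t
  δ : ∀ j q t, 0 < t → (H j q).V t →ₗ[k] (R j (q + 1)).V t
  α_nat : ∀ j q s t hs ht (h : s ≤ t) x,
    (H (j + 1) q).ρ s t hs h (α j q t ht x) = α j q s hs ((R j q).ρ s t hs h x)
  β_nat : ∀ j q s t hs ht (h : s ≤ t) x,
    (H j q).ρ s t hs h (β j q t ht x) = β j q s hs ((H (j + 1) q).ρ s t hs h x)
  δ_nat : ∀ j q s t hs ht (h : s ≤ t) x,
    (R j (q + 1)).ρ s t hs h (δ j q t ht x) = δ j q s hs ((H j q).ρ s t hs h x)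
  ex1 : ∀ j q t ht, Function.Exact (α j q t ht) (β j q t ht)
  ex2 : ∀ j q t ht, Function.Exact (β j q t ht) (δ j q t ht)
  ex3 : ∀ j q t ht, Function.Exact (δ j q t ht) (α j (q + 1) t ht)

namespace Lad

variable (L : Lad k)

/-- `H^q(E_{j+1})` and `H^{q+1}(E_{j+1}, E_j)` short, so is `H^q(E_j)`. -/
theorem eph_down {j q : ℕ} {C C' : ℝ} (hC : 0 ≤ C) (hC' : 0 ≤ C') (h1 : (L.H (j + 1) q).Eph C)
    (h2 : (L.R j (q + 1)).Eph C') : (L.H j q).Eph (C + C') := by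
  intro s t hs hst hle x
  have hu : 0 < s + C := by linarith
  have hut : s + C ≤ t := by linarith
  have hsu : s ≤ s + C := by linarith
  have ht : 0 < t := hs.trans_le hst
  have e1 : L.δ j q (s + C) hu ((L.H j q).ρ (s + C) t hu hut x) = 0 := by
    rw [← L.δ_nat j q (s + C) t hu ht hut x]
    exact h2 _ _ _ _ (by linarith) _
  obtain ⟨y, hy⟩ := (L.ex2 j q (s + C) hu _).1 e1
  rw [← (L.H j q).ρ_comp s (s + C) t hs hu hsu hut hst, ← hy, L.β_nat j q s (s + C) hs hu hsu,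
    h1 _ _ _ _ le_rfl, map_zero]

/-- `H^q(E_j)` and `H^q(E_{j+1}, E_j)` short, so is `H^q(E_{j+1})`. -/
theorem eph_up {j q : ℕ} {C C' : ℝ} (hC : 0 ≤ C) (hC' : 0 ≤ C') (h1 : (L.H j q).Eph C)
    (h2 : (L.R j q).Eph C') : (L.H (j + 1) q).Eph (C + C') := by
  intro s t hs hst hle x
  have hu : 0 < s + C' := by linarith
  have hut : s + C' ≤ t := by linarith
  have hsu : s ≤ s + C' := by linarith
  have ht : 0 < t := hs.trans_le hst
  have e1 : L.β j q (s + C') hu ((L.H (j + 1) q).ρ (s + C') t hu hut x) = 0 := by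
    rw [← L.β_nat j q (s + C') t hu ht hut x]
    exact h1 _ _ _ _ (by linarith) _
  obtain ⟨y, hy⟩ := (L.ex1 j q (s + C') hu _).1 e1
  rw [← (L.H (j + 1) q).ρ_comp s (s + C') t hs hu hsu hut hst, ← hy,
    L.α_nat j q s (s + C') hs hu hsu, h2 _ _ _ _ le_rfl, map_zero]

/-- Injectivity of `H^q(E_{j+1}) → H^q(E_j)` up to a shift. -/
theorem inj_step {j q : ℕ} {C : ℝ} (h2 : (L.R j q).Eph C) {s t : ℝ} (hs : 0 < s) (h : s ≤ t)
    (hle : s + C ≤ t) (ht : 0 < t) {x : (L.H (j + 1) q).V t} (hx : L.β j q t ht x = 0) :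
    (L.H (j + 1) q).ρ s t hs h x = 0 := by
  obtain ⟨y, rfl⟩ := (L.ex1 j q t ht x).1 hx
  rw [L.α_nat j q s t hs ht h, h2 _ _ _ _ hle, map_zero]

/-- The restriction `H^q(E_j) → H^q(E_0)`. -/
noncomputable def toZero : ∀ (j q : ℕ) (t : ℝ), 0 < t → (L.H j q).V t →ₗ[k] (L.H 0 q).V t
  | 0, _, _, _ => LinearMap.id
  | j + 1, q, t, ht => toZero j q t ht ∘ₗ L.β j q t ht

theorem toZero_nat (j q : ℕ) (s t : ℝ) (hs : 0 < s) (ht : 0 < t) (h : s ≤ t)
    (x : (L.H j q).V t) : (L.H 0 q).ρ s t hs h (L.toZero j q t ht x) =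
      L.toZero j q s hs ((L.H j q).ρ s t hs h x) := by
  induction j with
  | zero => rfl
  | succ j ih =>
    change (L.H 0 q).ρ s t hs h (L.toZero j q t ht (L.β j q t ht x)) =
      L.toZero j q s hs (L.β j q s hs _)
    rw [ih, L.β_nat]

/-- Injectivity of `H^q(E_j) → H^q(E_0)` up to a shift. -/
theorem inj {q : ℕ} {C : ℝ} (hC : 0 ≤ C) : ∀ (j : ℕ), (∀ i < j, (L.R i q).Eph C) →
    ∀ (s t : ℝ) (hs : 0 < s) (h : s ≤ t) (ht : 0 < t), s + j * C ≤ t → ∀ x : (L.H j q).V t,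
    L.toZero j q t ht x = 0 → (L.H j q).ρ s t hs h x = 0 := by
  intro j
  induction j with
  | zero =>
    intro _ s t hs h ht _ x hx
    have : x = 0 := hx
    rw [this, map_zero]
  | succ j ih =>
    intro hR s t hs h ht hle x hx
    push_cast at hle
    have hjC : 0 ≤ (j : ℝ) * C := by positivity
    have hu : 0 < s + C := by linarith
    have hut : s + C ≤ t := by nlinarith
    have hsu : s ≤ s + C := by linarith
    have h1 := ih (fun i hi => hR i (by omega)) (s + C) t hu hut ht (by linarith)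
      (L.β j q t ht x) hx
    rw [L.β_nat j q (s + C) t hu ht hut x] at h1
    have h2 := L.inj_step (hR j (by omega)) hs hsu le_rfl hu h1
    rwa [(L.H (j + 1) q).ρ_comp s (s + C) t hs hu hsu hut h] at h2

/-- The geometric hypotheses of the ladder. -/
structure HypG (h e : ℕ) (C : ℝ) : Prop where
  C0 : 0 ≤ C
  e1 : 1 ≤ e
  /-- `E_h` is acyclic -/
  acyc : ∀ q, 1 ≤ q → (L.H h q).Eph C
  /-- cells of dimension `(j+1)(e+1)` -/
  low : ∀ j q, j < h → q < (j + 1) * (e + 1) → (L.R j q).Eph C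
  tr : ∀ j q r c, j < h → r = (j + 1) * (e + 1) + q → 0 ≤ c → (L.H 0 q).Eph c →
    (L.R j r).Eph (c + C)
  tr1 : ∀ j q r c, j < h → r = (j + 1) * (e + 1) + q → 0 ≤ c → Rk1 (L.H 0 q) c →
    Rk1 (L.R j r) (c + C)
  rk : Rk1 (L.H 0 0) C

/-- The hypotheses of the ladder. -/
structure Hyp (h e : ℕ) (C : ℝ) extends HypG L h e C where
  /-- the classes `A_j`, of degree `(j+1)d-1` -/
  A : ∀ j, (L.H j (j * (e + 1) + e)).Fam
  B : ∀ j, (L.R j ((j + 1) * (e + 1) + e)).Fam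
  αB : ∀ j t ht, j < h → L.α j _ t ht ((B j).z t ht) = (A (j + 1)).z t ht
  /-- this is `x^{j+1} ≠ 0` on `M_{j+1}` -/
  K : ∀ j t ht, j < h → C ≤ t → L.δ j _ t ht ((A j).z t ht) ≠ 0

variable {L}

namespace Hyp

variable {h e : ℕ} {C : ℝ}


theorem A_ne (Y : L.Hyp h e C) {j : ℕ} (hj : j < h) {t : ℝ} (ht : 0 < t) (hC : C ≤ t) : (Y.A j).z t ht ≠ 0 :=
  fun h0 => Y.K j t ht hj hC (by rw [h0, map_zero])

theorem βA (Y : L.Hyp h e C) {j : ℕ} (hj : j < h) {t : ℝ} (ht : 0 < t) :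
    L.β j _ t ht ((Y.A (j + 1)).z t ht) = 0 := by
  rw [← Y.αB j t ht hj]
  exact (L.ex1 j _ t ht _).2 ⟨_, rfl⟩

/-- Going down from `h` when all relative groups are short. -/
theorem down {q : ℕ} {C' : ℝ} (hC' : 0 ≤ C') : ∀ (i j : ℕ), i ≤ j → (L.H j q).Eph C' →
    (∀ l, i ≤ l → l < j → (L.R l (q + 1)).Eph C') → (L.H i q).Eph ((j - i + 1 : ℕ) * C') := by
  intro i j hij
  induction j, hij using Nat.le_induction with
  | base =>
    intro h1 _
    exact eph_mono h1 (by rw [Nat.sub_self]; push_cast; linarith)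
  | succ j hij ih =>
    intro h1 h2
    have h3 := L.eph_down hC' hC' h1 (h2 j hij (by omega))
    -- restart from level `j` with a bigger constant is not needed: direct induction on `j - i`
    have key : ∀ (m : ℕ) (c : ℝ), 0 ≤ c → m ≤ j - i → (L.H (j - m) q).Eph (2 * C' + m * C') := by
      intro m c _
      induction m with
      | zero => intro _; simpa [two_mul] using h3
      | succ m ihm =>
        intro hm
        have h4 := ihm (by omega)
        have e : j - m = (j - (m + 1)) + 1 := by omega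
        rw [e] at h4
        have h5 := L.eph_down (by positivity) hC' h4 (h2 (j - (m + 1)) (by omega) (by omega))
        exact eph_mono h5 (by push_cast; linarith)
    have h6 := key (j - i) 0 le_rfl le_rfl
    have e : j - (j - i) = i := by omega
    rw [e] at h6
    refine eph_mono h6 ?_
    have e2 : j + 1 - i + 1 = (j - i) + 2 := by omega
    rw [e2]
    push_cast
    linarith

/-- The uniform statement in one degree. -/
theorem low_eph (Y : L.Hyp h e C) {q : ℕ} (h1 : 1 ≤ q) (hq : q < e) : (L.H 0 q).Eph ((h + 1 : ℕ) * C) := by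
  have := down (L := L) Y.C0 0 h (Nat.zero_le _) (Y.acyc q h1) (fun l _ hl => Y.low l (q + 1) hl (by
    have : 1 * (e + 1) ≤ (l + 1) * (e + 1) := Nat.mul_le_mul_right _ (by omega)
    omega))
  simpa using this

/-- Rank one in degree `e`. -/
theorem low_rk1 (Y : L.Hyp h e C) (hh : 1 ≤ h) : Rk1 (L.H 0 e) ((h + 3 : ℕ) * C) := by
  have hC := Y.C0
  have h1 : (L.H 1 e).Eph ((h : ℕ) * C) := by
    have := down (L := L) Y.C0 1 h hh (Y.acyc e Y.e1) (fun l hl hl' => Y.low l (e + 1) hl' (by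
      have : 2 * (e + 1) ≤ (l + 1) * (e + 1) := Nat.mul_le_mul_right _ (by omega)
      omega))
    have e1 : h - 1 + 1 = h := by omega
    rwa [e1] at this
  have h2 : Rk1 (L.R 0 (e + 1)) (C + C) := Y.tr1 0 0 (e + 1) C (by omega) (by ring) Y.C0 Y.rk
  intro s t hs hst hle x y
  push_cast at hle
  have hhC : 0 ≤ (h : ℝ) * C := by positivity
  have hu : 0 < s + h * C := by linarith
  have hut : s + h * C ≤ t := by nlinarith
  have hsu : s ≤ s + h * C := by linarith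
  have ht : 0 < t := hs.trans_le hst
  obtain ⟨a, b, hab, hz⟩ := h2 (s + h * C) t hu hut (by nlinarith) (L.δ 0 e t ht x)
    (L.δ 0 e t ht y)
  refine ⟨a, b, hab, ?_⟩
  rw [L.δ_nat 0 e _ t hu ht hut, L.δ_nat 0 e _ t hu ht hut] at hz
  have hz' : L.δ 0 e _ hu (a • (L.H 0 e).ρ _ t hu hut x + b • (L.H 0 e).ρ _ t hu hut y) = 0 := by
    rw [map_add, map_smul, map_smul]
    exact hz
  obtain ⟨w, hw⟩ := (L.ex2 0 e _ hu _).1 hz'
  have h3 := congrArg ((L.H 0 e).ρ s (s + h * C) hs hsu) hw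
  rw [L.β_nat 0 e s _ hs hu hsu, h1 _ _ _ _ le_rfl, map_zero, map_add, map_smul, map_smul,
    (L.H 0 e).ρ_comp s _ t hs hu hsu hut hst, (L.H 0 e).ρ_comp s _ t hs hu hsu hut hst] at h3
  exact h3.symm

/-- Case I: `q + 1 = (j+1)d`, `1 ≤ j`. -/
theorem caseI (Y : L.Hyp h e C) {j q : ℕ} {C₁ C₂ : ℝ} (h1 : 0 ≤ C₁) (h2 : 0 ≤ C₂) (hj : j + 1 < h)
    (hq : q = (j + 1) * (e + 1) + e) (hH : (L.H (j + 2) q).Eph C₁)
    (hrk : Rk1 (L.R (j + 1) (q + 1)) C₂) (hR : (L.R j (q + 1)).Eph C₂) :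
    (L.H j q).Eph (C₁ + 2 * C₂ + C) := by
  subst hq
  have hC := Y.C0
  intro s t hs hst hle x
  have ht : 0 < t := hs.trans_le hst
  -- levels: `s ≤ v = s + C ≤ v + C₁ ≤ v + C₁ + C₂ ≤ t`
  set v := s + C with hv
  have hv0 : 0 < v := by linarith
  have hsv : s ≤ v := by linarith
  have hv1 : 0 < v + C₁ := by linarith
  have hvv : v ≤ v + C₁ := by linarith
  have hw0 : 0 < v + C₁ + C₂ := by linarith
  have hvw : v + C₁ ≤ v + C₁ + C₂ := by linarith
  have hwt : v + C₁ + C₂ ≤ t := by linarith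
  -- lift to `E_{j+1}`
  have e1 : L.δ j _ (v + C₁ + C₂) hw0 ((L.H j _).ρ (v + C₁ + C₂) t hw0 hwt x) = 0 := by
    rw [← L.δ_nat j _ _ t hw0 ht hwt x]
    exact hR _ _ _ _ (by linarith) _
  obtain ⟨y, hy⟩ := (L.ex2 j _ _ hw0 _).1 e1
  -- dependence with `A`
  obtain ⟨a, b, hab, hz⟩ := hrk (v + C₁) (v + C₁ + C₂) hv1 hvw le_rfl
    (L.δ (j + 1) _ _ hw0 y) (L.δ (j + 1) _ _ hw0 ((Y.A (j + 1)).z _ hw0))
  rw [L.δ_nat (j + 1) _ _ _ hv1 hw0 hvw, L.δ_nat (j + 1) _ _ _ hv1 hw0 hvw] at hz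
  have hz' : L.δ (j + 1) _ _ hv1 (a • (L.H (j + 1) _).ρ _ _ hv1 hvw y +
      b • (L.H (j + 1) _).ρ _ _ hv1 hvw ((Y.A (j + 1)).z _ hw0)) = 0 := by
    rw [map_add, map_smul, map_smul]
    exact hz
  obtain ⟨w, hw⟩ := (L.ex2 (j + 1) _ _ hv1 _).1 hz'
  have h3 := congrArg ((L.H (j + 1) _).ρ v (v + C₁) hv0 hvv) hw
  rw [L.β_nat (j + 1) _ v _ hv0 hv1 hvv, hH _ _ _ _ le_rfl, map_zero, map_add, map_smul, map_smul,
    (L.H (j + 1) _).ρ_comp v _ _ hv0 hv1 hvv hvw (hvv.trans hvw),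
    (L.H (j + 1) _).ρ_comp v _ _ hv0 hv1 hvv hvw (hvv.trans hvw), (Y.A (j + 1)).comp] at h3
  -- `a ≠ 0`
  have ha : a ≠ 0 := by
    intro ha
    have hb : b ≠ 0 := hab.resolve_left (fun h => h ha)
    rw [ha, zero_smul, zero_add] at h3
    have h4 : (Y.A (j + 1)).z v hv0 = 0 := by
      have := h3.symm
      rwa [smul_eq_zero_iff_right hb] at this
    exact Y.A_ne hj hv0 (by linarith) h4
  -- restrict to `E_j`
  have h5 := congrArg (L.β j _ v hv0) h3
  rw [map_zero, map_add, map_smul, map_smul, Y.βA (by omega) hv0, smul_zero, add_zero,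
    ← L.β_nat j _ v _ hv0 hw0 (hvv.trans hvw), hy, (L.H j _).ρ_comp v _ t hv0 hw0
      (hvv.trans hvw) hwt (by linarith)] at h5
  have h6 : (L.H j ((j + 1) * (e + 1) + e)).ρ v t hv0 (by linarith) x = 0 := by
    have := h5.symm
    rwa [smul_eq_zero_iff_right ha] at this
  rw [← (L.H j _).ρ_comp s v t hs hv0 hsv (by linarith) hst, h6, map_zero]

/-- Case II: `q + 1 = (j+1)d + e`, `j + 1 < h`. -/
theorem caseII (Y : L.Hyp h e C) {j q : ℕ} {C₁ C₂ : ℝ} (h1 : 0 ≤ C₁) (h2 : 0 ≤ C₂) (hj : j + 1 < h)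
    (hq : q + 1 = (j + 1) * (e + 1) + e) (hH : (L.H (j + 1) q).Eph C₁)
    (hrk : Rk1 (L.R j (q + 1)) C₂) : (L.H j q).Eph (C₁ + C₂ + C) := by
  have hC := Y.C0
  intro s t hs hst hle x
  have ht : 0 < t := hs.trans_le hst
  set v := s + C with hv
  have hv0 : 0 < v := by linarith
  have hsv : s ≤ v := by linarith
  have hv1 : 0 < v + C₁ := by linarith
  have hvv : v ≤ v + C₁ := by linarith
  have hvt : v + C₁ ≤ t := by linarith
  obtain ⟨B, hB⟩ : ∃ B : (L.R j (q + 1)).Fam, ∀ t ht, C ≤ t → L.α j (q + 1) t ht (B.z t ht) ≠ 0 := by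
    rw [hq]
    exact ⟨Y.B j, fun t ht hCt => by rw [Y.αB j t ht (by omega)]; exact Y.A_ne hj ht hCt⟩
  obtain ⟨a, b, hab, hz⟩ := hrk (v + C₁) t hv1 hvt (by linarith) (L.δ j q t ht x) (B.z t ht)
  rw [B.comp, L.δ_nat j q _ t hv1 ht hvt] at hz
  have hb : b = 0 := by
    by_contra hb
    have h3 := congrArg (L.α j (q + 1) _ hv1) hz
    rw [map_zero, map_add, map_smul, map_smul, (L.ex3 j q _ hv1 _).2 ⟨_, rfl⟩, smul_zero,
      zero_add, smul_eq_zero_iff_right hb] at h3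
    exact hB _ hv1 (by linarith) h3
  have ha : a ≠ 0 := hab.resolve_right fun h => h hb
  rw [hb, zero_smul, add_zero, smul_eq_zero_iff_right ha] at hz
  obtain ⟨w, hw⟩ := (L.ex2 j q _ hv1 _).1 hz
  rw [← (L.H j q).ρ_comp s (v + C₁) t hs hv1 (by linarith) hvt hst, ← hw,
    L.β_nat j q s _ hs hv1 (by linarith), hH _ _ _ _ (by linarith), map_zero]

/-- The relative groups in the range of the induction. -/
theorem R_eph (Y : L.Hyp h e C) {q j : ℕ} {c : ℝ} (hc : 0 ≤ c) (hj : j < h)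
    (ih : ∀ q', 1 ≤ q' → q' < q → q' ≠ e → (L.H 0 q').Eph c)
    (hq : q + 1 < (j + 1) * (e + 1) ∨ ∃ r, 1 ≤ r ∧ r ≠ e ∧ q + 1 = (j + 1) * (e + 1) + r) :
    (L.R j (q + 1)).Eph (c + C) := by
  rcases hq with h1 | ⟨r, h1, h2, h3⟩
  · exact eph_mono (Y.low j (q + 1) hj h1) (by linarith)
  · refine Y.tr j r (q + 1) c hj h3 hc (ih r h1 ?_ h2)
    have := Y.e1
    have : 1 * (e + 1) ≤ (j + 1) * (e + 1) := Nat.mul_le_mul_right _ (by omega)
    omega

/-- One degree. -/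
theorem mid_step (Y : L.Hyp h e C) {q : ℕ} {c : ℝ} (hc : 0 ≤ c) (h1 : 1 ≤ q) (hqe : q ≠ e)
    (hq : q + 1 < h * (e + 1) + e)
    (ih : ∀ q', 1 ≤ q' → q' < q → q' ≠ e → (L.H 0 q').Eph c) :
    (L.H 0 q).Eph ((h + 1 : ℕ) * ((h + 1 : ℕ) * (c + (h + 4 : ℕ) * C) +
      3 * (c + (h + 4 : ℕ) * C))) := by
  have hC := Y.C0
  have he := Y.e1
  have hhC : 0 ≤ (h : ℝ) * C := by positivity
  set D : ℝ := c + (h + 4 : ℕ) * C with hD
  have hD1 : c + C ≤ D := by rw [hD]; push_cast; linarith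
  have hD0 : 0 ≤ D := by linarith
  have hDC : C ≤ D := by linarith
  have hD2 : C + C ≤ D := by rw [hD]; push_cast; linarith
  have hD3 : (h + 3 : ℕ) * C + C ≤ D := by rw [hD]; push_cast; linarith
  have hhD : 0 ≤ (h : ℝ) * D := by positivity
  set T : ℝ := (h + 1 : ℕ) * D + 3 * D with hT
  have hT0 : 0 ≤ T := by positivity
  have hDT : D ≤ T := by rw [hT]; push_cast; linarith
  have hR : ∀ j < h, (q + 1 < (j + 1) * (e + 1) ∨
      ∃ r, 1 ≤ r ∧ r ≠ e ∧ q + 1 = (j + 1) * (e + 1) + r) → (L.R j (q + 1)).Eph D :=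
    fun j hj hh => eph_mono (Y.R_eph hc hj ih hh) hD1
  have hacyc : (L.H h q).Eph D := eph_mono (Y.acyc q h1) hDC
  by_cases hI : ∃ j, j < h ∧ q + 1 = (j + 1) * (e + 1)
  · obtain ⟨j0, hj0, hq0⟩ := hI
    obtain ⟨j, rfl⟩ : ∃ j, j0 = j + 1 := by
      refine Nat.exists_eq_succ_of_ne_zero ?_
      rintro rfl
      apply hqe
      omega
    have hq' : q = (j + 1) * (e + 1) + e := by
      have : (j + 1 + 1) * (e + 1) = (j + 1) * (e + 1) + (e + 1) := by ring
      omega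
    have hH : (L.H (j + 2) q).Eph ((h + 1 : ℕ) * D) := by
      have h2 := down (L := L) hD0 (j + 2) h (by omega) hacyc (fun l hl hl' => hR l hl' (Or.inl (by
        have : (j + 3) * (e + 1) ≤ (l + 1) * (e + 1) := Nat.mul_le_mul_right _ (by omega)
        have e3 : (j + 3) * (e + 1) = (j + 1 + 1) * (e + 1) + (e + 1) := by ring
        omega)))
      refine eph_mono h2 (mul_le_mul_of_nonneg_right ?_ hD0)
      exact_mod_cast (by omega : h - (j + 2) + 1 ≤ h + 1)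
    have hrk : Rk1 (L.R (j + 1) (q + 1)) D :=
      (Y.tr1 (j + 1) 0 (q + 1) C hj0 (by omega) hC Y.rk).mono hD2
    have hRj : (L.R j (q + 1)).Eph D := hR j (by omega) (Or.inr ⟨e + 1, by omega, by omega, by
      rw [hq0]; ring⟩)
    have h3 := Y.caseI (C₁ := (h + 1 : ℕ) * D) (C₂ := D) (by positivity) hD0 hj0 hq' hH hrk hRj
    have h4 : (L.H j q).Eph T := eph_mono h3 (by rw [hT]; linarith)
    have h5 := down (L := L) hT0 0 j (Nat.zero_le _) h4 (fun l _ hl' =>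
      eph_mono (hR l (by omega) (Or.inr ⟨(j + 1 - l) * (e + 1), ?_, ?_, ?_⟩)) hDT)
    · refine eph_mono h5 (mul_le_mul_of_nonneg_right ?_ hT0)
      exact_mod_cast (by omega : j - 0 + 1 ≤ h + 1)
    · have : 1 * (e + 1) ≤ (j + 1 - l) * (e + 1) := Nat.mul_le_mul_right _ (by omega)
      omega
    · have : 1 * (e + 1) ≤ (j + 1 - l) * (e + 1) := Nat.mul_le_mul_right _ (by omega)
      omega
    · rw [hq0, ← Nat.add_mul]
      congr 1
      omega
  by_cases hII : ∃ j, j < h ∧ q + 1 = (j + 1) * (e + 1) + e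
  · obtain ⟨j, hj, hq0⟩ := hII
    have hjh : j + 1 < h := by
      by_contra hcon
      have : h * (e + 1) ≤ (j + 1) * (e + 1) := Nat.mul_le_mul_right _ (by omega)
      omega
    have hH : (L.H (j + 1) q).Eph ((h + 1 : ℕ) * D) := by
      have h2 := down (L := L) hD0 (j + 1) h (by omega) hacyc (fun l hl hl' => hR l hl' (Or.inl (by
        have : (j + 2) * (e + 1) ≤ (l + 1) * (e + 1) := Nat.mul_le_mul_right _ (by omega)
        have e3 : (j + 2) * (e + 1) = (j + 1) * (e + 1) + (e + 1) := by ring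
        omega)))
      refine eph_mono h2 (mul_le_mul_of_nonneg_right ?_ hD0)
      exact_mod_cast (by omega : h - (j + 1) + 1 ≤ h + 1)
    have hrk : Rk1 (L.R j (q + 1)) D :=
      (Y.tr1 j e (q + 1) _ hj hq0 (by positivity) (Y.low_rk1 (by omega))).mono hD3
    have h3 := Y.caseII (C₁ := (h + 1 : ℕ) * D) (C₂ := D) (by positivity) hD0 hjh hq0 hH hrk
    have h4 : (L.H j q).Eph T := eph_mono h3 (by rw [hT]; linarith)
    have h5 := down (L := L) hT0 0 j (Nat.zero_le _) h4 (fun l _ hl' =>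
      eph_mono (hR l (by omega) (Or.inr ⟨(j - l) * (e + 1) + e, by omega, ?_, ?_⟩)) hDT)
    · refine eph_mono h5 (mul_le_mul_of_nonneg_right ?_ hT0)
      exact_mod_cast (by omega : j - 0 + 1 ≤ h + 1)
    · have : 1 * (e + 1) ≤ (j - l) * (e + 1) := Nat.mul_le_mul_right _ (by omega)
      omega
    · rw [hq0, ← Nat.add_assoc, ← Nat.add_mul]
      congr 2
      omega
  · have h2 := down (L := L) hD0 0 h (Nat.zero_le _) hacyc (fun l _ hl' => hR l hl' ?_)
    · refine (eph_mono h2 ?_)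
      have e1 : h - 0 + 1 = h + 1 := by omega
      rw [e1]
      exact mul_le_mul_of_nonneg_left hDT (by positivity)
    · rcases lt_or_ge (q + 1) ((l + 1) * (e + 1)) with h3 | h3
      · exact Or.inl h3
      · refine Or.inr ⟨q + 1 - (l + 1) * (e + 1), ?_, ?_, by omega⟩
        · by_contra hcon
          exact hI ⟨l, hl', by omega⟩
        · intro hcon
          exact hII ⟨l, hl', by omega⟩

end Hyp

/-- The constants. -/
noncomputable def cm (h : ℕ) (C : ℝ) : ℕ → ℝ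
  | 0 => 0
  | q + 1 => cm h C q + (h + 1 : ℕ) * ((h + 1 : ℕ) * (cm h C q + (h + 4 : ℕ) * C) +
      3 * (cm h C q + (h + 4 : ℕ) * C))

theorem cm_nonneg (h : ℕ) {C : ℝ} (hC : 0 ≤ C) (q : ℕ) : 0 ≤ cm h C q := by
  induction q with
  | zero => exact le_rfl
  | succ q ih => rw [cm]; positivity

theorem cm_mono (h : ℕ) {C : ℝ} (hC : 0 ≤ C) {q q' : ℕ} (hq : q ≤ q') : cm h C q ≤ cm h C q' := by
  induction q', hq using Nat.le_induction with
  | base => exact le_rfl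
  | succ q' _ ih =>
    have := cm_nonneg h hC q'
    rw [cm]
    have : 0 ≤ (h + 1 : ℕ) * ((h + 1 : ℕ) * (cm h C q' + (h + 4 : ℕ) * C) +
      3 * (cm h C q' + (h + 4 : ℕ) * C)) := by positivity
    linarith

/-- **The middle degrees**: `H^q(Ω_t)` is short for `0 < q < (h+1)d - 2`, `q ≠ e = d - 1`. -/
theorem mid {h e : ℕ} {C : ℝ} (Y : L.Hyp h e C) : ∀ (q : ℕ), 1 ≤ q → q ≠ e →
    q + 1 < h * (e + 1) + e → (L.H 0 q).Eph (cm h C q) := by
  intro q
  induction q using Nat.strong_induction_on with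
  | _ q ih =>
    intro h1 hqe hq
    obtain ⟨q, rfl⟩ := Nat.exists_eq_succ_of_ne_zero (show q ≠ 0 by omega)
    have h2 := Y.mid_step (cm_nonneg h Y.C0 q) h1 hqe hq (fun q' a b c =>
      eph_mono (ih q' b a c (by omega)) (cm_mono h Y.C0 (by omega)))
    refine eph_mono h2 ?_
    have := cm_nonneg h Y.C0 q
    change _ ≤ cm h C (q + 1)
    rw [cm]
    linarith

/-- **Injectivity** of `H^r(E_{h-1}) → H^r(E_0)` for `r = (h+1)d - 2`, up to a shift. -/
theorem mid_inj {h e : ℕ} {C : ℝ} (Y : L.Hyp (h + 1) e C) {r : ℕ}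
    (hr : r + 1 = (h + 1) * (e + 1) + e) :
    ∃ c : ℝ, c = cm (h + 1) C r + C ∧ ∀ (s t : ℝ) (hs : 0 < s) (hst : s ≤ t) (ht : 0 < t),
      s + h * c ≤ t → ∀ x : (L.H h r).V t, L.toZero h r t ht x = 0 →
      (L.H h r).ρ s t hs hst x = 0 := by
  have he := Y.e1
  have hC := Y.C0
  have hc := cm_nonneg (h + 1) hC r
  refine ⟨_, rfl, fun s t hs hst ht hle x hx => L.inj (C := cm (h + 1) C r + C) (by linarith) h
    (fun i hi => ?_) s t hs hst ht hle x hx⟩
  -- `r = (i+1)d + ((h-i)d + e - 1)`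
  refine Y.tr i ((h - i) * (e + 1) + e - 1) r _ (by omega) ?_ hc ?_
  · have h1 : (h + 1) * (e + 1) = (i + 1) * (e + 1) + (h - i) * (e + 1) := by
      rw [← Nat.add_mul]
      congr 1
      omega
    omega
  · have h2 : 1 * (e + 1) ≤ (h - i) * (e + 1) := Nat.mul_le_mul_right _ (by omega)
    have h3 : (h - i) * (e + 1) ≤ h * (e + 1) := Nat.mul_le_mul_right _ (by omega)
    have h4 : (h + 1) * (e + 1) = h * (e + 1) + (e + 1) := by ring
    exact eph_mono (L.mid Y _ (by omega) (by omega) (by omega)) (cm_mono (h + 1) hC (by omega))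

end Lad

end Vale.Agent.P216.H140
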