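import Vale.Agent.P216.H140.StepD

/-!
# P216-C, block C12-MID: invariance of `η`

`eta_inv`: the value of `η` on the paths (wait at `q`) · `z⁻¹` · (fixed path) · (fixed segment) is
its value on `z⁻¹`, for the times in `ℕ`.
-/

set_option linter.all false

open Set Finsupp BoundedContinuousFunction

namespace Vale.Agent.P216.H140

open Vale.Agent.P216.PS Vale.Agent.P216.Sl Vale.Agent.P216.H456 Vale.Agent.P216.MV337
open Vale.Agent.P216.H456C Vale.Agent.P216.H901
open Vale.Agent.P216.N929 (Coc Fine Tau Scl Cy cutp)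
open Vale.Agent.P216.H754B (rv rv_apply rv_mem_P dist_rv_le lip_rv)

variable {k : Type} [Field k] {M : Type} [MetricSpace M] [CompactSpace M]

/-- A constant part of integer duration in front. -/
def EFront (N : ℕ) (ξ : List M → k) : Prop :=
  ∀ (m : ℕ) (c : ℝ → M) (G : (ℝ →ᵇ M) → ℝ →ᵇ M) (l : List (ℝ →ᵇ M)), 2 ≤ l.length →
    (∀ w ∈ l, (∀ u : ℝ, 0 ≤ u → u ≤ m → G w u = c u) ∧ ∀ u : ℝ, m ≤ u → G w u = w (u - m)) →
    eta N ξ (l.map G) = eta N ξ l

/-- A constant part after an integer time. -/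
def EBack (N : ℕ) (ξ : List M → k) : Prop :=
  ∀ (m : ℕ) (c c' : ℝ → M) (G : (ℝ →ᵇ M) → ℝ →ᵇ M) (l : List (ℝ →ᵇ M)), 2 ≤ l.length →
    (∀ w ∈ l, (∀ u : ℝ, 0 ≤ u → u ≤ m → G w u = w u) ∧
      ∀ u : ℝ, m ≤ u → G w u = c u ∧ w u = c' u) →
    eta N ξ (l.map G) = eta N ξ l

theorem eta_inv {N : ℕ} {ξ : List M → k} (hfr : EFront N ξ) (hbk : EBack N ξ) {ρ₀ r : ℝ}
    (hseg : LS.UniqSeg M ρ₀) (hr : 0 < r) (hrρ : r < ρ₀) {D : Set M} {Tk : M → ℝ → M}
    {p q : M} {c T t'' : ℕ} (hT : Tr D p c Tk) (hTT : t'' + c ≤ T) {v : M} (hv : v ∈ D)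
    (hvp : dist v p ≤ r) {t : List (ℝ →ᵇ M)} (ht : 2 ≤ t.length)
    (htz : ∀ z ∈ t, z ∈ P p q (t'' : ℝ)) :
    eta N ξ (t.map fun z => cutp r p (rv T (lback Tk c (v, z)), (T : ℝ))) =
      eta N ξ (t.map (rv t'')) := by
  have ht0 : (0 : ℝ) ≤ t'' := by positivity
  have hc0 : (0 : ℝ) ≤ c := by positivity
  -- `m₁ = T - c`, `m₀ = T - c - t''`
  obtain ⟨m₀, hm₀⟩ : ∃ m₀ : ℕ, T = m₀ + t'' + c := ⟨T - (t'' + c), by omega⟩
  have hTr : (T : ℝ) = m₀ + t'' + c := by rw [hm₀]; push_cast; ring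
  set A : (ℝ →ᵇ M) → ℝ →ᵇ M := fun z => cutp r p (rv T (lback Tk c (v, z)), (T : ℝ)) with hA
  -- values
  have hlip : ∀ z ∈ t, Lip (rv T (lback Tk c (v, z)) : ℝ → M) := fun z hz =>
    lip_rv (lback_memB (p := (v, z)) hT ht0 hv (htz z hz)).1 _
  have hend : ∀ z ∈ t, rv T (lback Tk c (v, z)) T = v := fun z hz => by
    rw [rv_apply, sub_self]
    exact lback_zeroB (p := (v, z)) hT ht0 hv (htz z hz)
  have hval : ∀ z ∈ t, ∀ u, A z u = spl r (rv T (lback Tk c (v, z))) (cst p) T 0 u := by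
    intro z hz u
    refine splice_apply hseg hr hrρ (hlip z hz) (lip_cst p) ?_ u
    rw [hend z hz, cst_apply]
    exact hvp
  have hlb : ∀ z ∈ t, ∀ u, lback Tk c (v, z) u = lj c (fun u => Tk v (c - u)) z u := fun z hz u =>
    lback_applyB (p := (v, z)) hT hv (htz z hz) u
  -- first: the back part
  have e1 : eta N ξ (t.map A) = eta N ξ (t.map (rv ((m₀ + t'' : ℕ) : ℝ))) := by
    obtain ⟨z₀, hz₀⟩ : ∃ z₀, z₀ ∈ t := by
      rcases t with _ | ⟨z, t⟩
      · simp at ht
      · exact ⟨z, List.mem_cons_self⟩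
    have h := hbk (m₀ + t'') (fun u => A z₀ u) (fun _ => p)
      (fun w => A (rv ((m₀ + t'' : ℕ) : ℝ) w)) (t.map (rv ((m₀ + t'' : ℕ) : ℝ)))
      (by rw [List.length_map]; exact ht) (fun w hw => ?_)
    · rw [← h, List.map_map]
      congr 1
      refine List.map_congr_left fun z _ => ?_
      change A z = A (rv _ (rv _ z))
      rw [rv_rv]
    · obtain ⟨z, hz, rfl⟩ := List.mem_map.1 hw
      have hm1 : ((m₀ + t'' : ℕ) : ℝ) = T - c := by rw [hTr]; push_cast; ring
      rw [hm1]
      constructor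
      · intro u h0 h1
        change A (rv _ (rv _ z)) u = rv _ z u
        rw [rv_rv, hval z hz, spl_left (by linarith), rv_apply, hlb z hz, rv_apply]
        rcases h1.eq_or_lt with rfl | h1
        · rw [show (T : ℝ) - (T - c) = c by ring, lj_left le_rfl, sub_self,
            show (T : ℝ) - c - (T - c) = 0 by ring, eq_left (htz z hz) le_rfl, sub_zero,
            hT.right v hv _ le_rfl]
        · rw [lj, if_neg (by linarith)]
          congr 1
          ring
      · intro u h1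
        constructor
        · change A (rv _ (rv _ z)) u = A z₀ u
          rw [rv_rv, hval z hz, hval z₀ hz₀]
          rcases le_total u T with h2 | h2
          · rw [spl_left h2, spl_left h2, rv_apply, rv_apply, hlb z hz, hlb z₀ hz₀,
              lj_left (by linarith), lj_left (by linarith)]
          rcases le_total u (T + r) with h3 | h3
          · rw [spl_mid h2 h3, spl_mid h2 h3, hend z hz, hend z₀ hz₀]
          · rw [spl_right hr h3, spl_right hr h3]
        · rw [rv_apply]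
          exact eq_left (htz z hz) (by linarith)
  -- second: the waiting time
  have e2 : eta N ξ (t.map (rv ((m₀ + t'' : ℕ) : ℝ))) = eta N ξ (t.map (rv (t'' : ℝ))) := by
    have h := hfr m₀ (fun _ => q) (fun w => rv ((m₀ + t'' : ℕ) : ℝ) (rv (t'' : ℝ) w))
      (t.map (rv (t'' : ℝ))) (by rw [List.length_map]; exact ht) (fun w hw => ?_)
    · rw [← h, List.map_map]
      congr 1
      refine List.map_congr_left fun z _ => ?_
      change rv _ z = rv _ (rv _ (rv _ z))
      rw [rv_rv]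
    · obtain ⟨z, hz, rfl⟩ := List.mem_map.1 hw
      constructor
      · intro u h0 h1
        change rv _ (rv _ (rv _ z)) u = q
        rw [rv_rv, rv_apply]
        refine eq_right (htz z hz) ?_
        push_cast
        linarith
      · intro u h1
        change rv _ (rv _ (rv _ z)) u = rv _ z (u - m₀)
        rw [rv_rv, rv_apply, rv_apply]
        congr 1
        push_cast
        ring
  rw [e1, e2]

end Vale.Agent.P216.H140
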