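import Vale.Agent.P216.H787.Cls
import Vale.Agent.P216.H83.Les
import Vale.Agent.P216.N929.Fib0

/-!
# Relative cohomology classes of list cochains (no symmetries)

* `CocR X A n f` : `f` is a list cocycle on the small lists of `X`, zero on the small lists of `A`;
* `ExR X A n f` : `f = dl g` on the small lists of `X` with `g` zero on the small lists of `A`;
* `clsR` : the class in `Hr (tr E) (on k) X A n`, `clsR_eq_zero`, `exists_clsR`,
  compatibility with restriction, pull-back and the maps of the long exact sequence.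
-/

open Set Finsupp

namespace Vale.Agent.P216.H140

open Vale.Agent.P216.AS Vale.Agent.P216.PS Vale.Agent.P216.Sl Vale.Agent.P216.H901
open Vale.Agent.P216.H83

variable {k : Type} [Field k] {E E' : Type} [PseudoMetricSpace E] [PseudoMetricSpace E']

/-- `f` vanishes on the small lists of `A` of length `n`. -/
def VanL (A : Set E) (n : ℕ) (f : List E → k) : Prop :=
  ∃ ε > 0, ∀ l, l.length = n → SmL A ε l → f l = 0

/-- Relative list cocycle. -/
structure CocR (X A : Set E) (n : ℕ) (f : List E → k) : Prop where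
  coc : CocL X n f
  van : VanL A (n + 1) f

/-- Relative list coboundary. -/
def ExR (X A : Set E) (n : ℕ) (f : List E → k) : Prop :=
  ∃ g : List E → k, (n = 0 → ∀ l, g l = 0) ∧ VanL A n g ∧
    ∃ ε > 0, ∀ l, l.length = n + 1 → SmL X ε l → f l = dl g l

theorem VanL.mono {A B : Set E} {n : ℕ} {f : List E → k} (h : VanL B n f) (hA : A ⊆ B) :
    VanL A n f := by
  obtain ⟨ε, hε, h⟩ := h
  exact ⟨ε, hε, fun l hl hs => h l hl (hs.mono hA le_rfl)⟩

theorem vanL_empty {n : ℕ} {f : List E → k} : VanL (∅ : Set E) (n + 1) f := by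
  refine ⟨1, one_pos, fun l hl hs => ?_⟩
  obtain ⟨x, l, rfl⟩ := List.exists_cons_of_length_pos (l := l) (by omega)
  exact absurd (hs.1 x List.mem_cons_self) (notMem_empty _)

theorem CocR.mono {X A Y B : Set E} {n : ℕ} {f : List E → k} (h : CocR X A n f) (hY : Y ⊆ X)
    (hB : B ⊆ A) : CocR Y B n f := ⟨h.coc.mono hY, h.van.mono hB⟩

theorem _root_.Vale.Agent.P216.Sl.CocL.toR {X : Set E} {n : ℕ} {f : List E → k}
    (h : CocL X n f) : CocR X ∅ n f := ⟨h, vanL_empty⟩

theorem ExR.mono {X A Y B : Set E} {n : ℕ} {f : List E → k} (h : ExR X A n f) (hY : Y ⊆ X)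
    (hB : B ⊆ A) : ExR Y B n f := by
  obtain ⟨g, hg, hv, ε, hε, h⟩ := h
  exact ⟨g, hg, hv.mono hB, ε, hε, fun l hl hs => h l hl (hs.mono hY le_rfl)⟩

theorem ExR.exL {X A : Set E} {n : ℕ} {f : List E → k} (h : ExR X A n f) : ExL X n f := by
  obtain ⟨g, hg, -, h⟩ := h
  exact ⟨g, hg, h⟩

section

variable {I : Type} [IsEmpty I]

theorem van_ofL {A : Set E} {n : ℕ} {f : List E → k} (h : VanL A n f) : Van A (ofL n f) := by
  obtain ⟨ε, hε, h⟩ := h
  exact ⟨ε, hε, fun x hx => h _ List.length_ofFn (smL_ofFn.2 hx)⟩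

theorem vanL_toL {A : Set E} {n : ℕ} {f : (Fin n → E) → k} (h : Van A f) : VanL A n (toL f) := by
  obtain ⟨ε, hε, h⟩ := h
  refine ⟨ε, hε, fun l hl hs => ?_⟩
  obtain ⟨y, rfl⟩ := exists_ofFn hl
  rw [toL_ofFn]
  exact h y (smL_ofFn.1 hs)

theorem mem_Zc_ofLR (a : I → E → E) (χ : I → k) {X A : Set E} {n : ℕ} {f : List E → k}
    (h : CocR X A n f) : ofL (n + 1) f ∈ Zc (Zr a χ X A) (Zr a χ X X) n :=
  mem_Zc_rel.2 ⟨fun i => isEmptyElim i, van_ofL h.van, (mem_Zc_abs.1 (mem_Zc_ofL a χ h.coc)).2⟩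

omit [IsEmpty I] in
theorem mkR_congr {a : I → E → E} {χ : I → k} {X A : Set E} {n : ℕ} {x y : (ASK E k).K n}
    (h : x = y) {hx : x ∈ Zc (Zr a χ X A) (Zr a χ X X) n}
    {hy : y ∈ Zc (Zr a χ X A) (Zr a χ X X) n} :
    (H.mk x hx : Hr a χ X A n) = H.mk y hy := by
  subst h
  rfl

/-- The class of a relative list cocycle. -/
def clsR (a : I → E → E) (χ : I → k) {X A : Set E} {n : ℕ} (f : List E → k) (h : CocR X A n f) :
    Hr a χ X A n := H.mk (ofL (n + 1) f) (mem_Zc_ofLR a χ h)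

variable {a : I → E → E} {a' : I → E' → E'} {χ : I → k} {X A Y B : Set E} {X' A' : Set E'} {n : ℕ}

/-- Every relative class is the class of a normalised list cochain. -/
theorem exists_clsR (z : Hr a χ X A n) :
    ∃ (f : List E → k) (h : CocR X A n f), Nrm f ∧ clsR a χ f h = z := by
  obtain ⟨x, hx, hN, rfl⟩ := exists_mk_Nrm Stb_Zr Stb_Zr z
  obtain ⟨-, hv, ε, hε, h⟩ := mem_Zc_rel.1 hx
  have hc : CocR X A n (toL x) := by
    refine ⟨⟨ε, hε, fun l hl hs => ?_⟩, vanL_toL hv⟩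
    obtain ⟨y, rfl⟩ := exists_ofFn hl
    rw [← toL_d, toL_ofFn]
    exact h y (smL_ofFn.1 hs)
  exact ⟨toL x, hc, hN, mkR_congr (ofL_toL x)⟩

/-- The class is zero iff the cochain is a relative coboundary at some scale. -/
theorem clsR_eq_zero {f : List E → k} {h : CocR X A n f} : clsR a χ f h = 0 ↔ ExR X A n f := by
  rw [clsR, H.mk_eq_zero]
  cases n with
  | zero =>
    rw [mem_Bc_zero]
    constructor
    · rintro ⟨-, ε, hε, h1⟩
      refine ⟨fun _ => 0, fun _ _ => rfl, ⟨1, one_pos, fun _ _ _ => rfl⟩, ε, hε,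
        fun l hl hs => ?_⟩
      obtain ⟨y, rfl⟩ := exists_ofFn hl
      rw [PS.dl_zero_fun]
      exact h1 y (smL_ofFn.1 hs)
    · rintro ⟨g, hg, -, ε, hε, h1⟩
      refine ⟨fun i => isEmptyElim i, ε, hε, fun x hx => ?_⟩
      have h2 := h1 (List.ofFn x) List.length_ofFn (smL_ofFn.2 hx)
      have h3 : g = fun _ => 0 := funext (hg rfl)
      rw [h3, PS.dl_zero_fun] at h2
      exact h2
  | succ n =>
    rw [mem_Bc_succ]
    constructor
    · rintro ⟨y, hy, -, ε, hε, h1⟩
      refine ⟨toL y, fun h0 => absurd h0 (Nat.succ_ne_zero n), vanL_toL hy.2, ε, hε,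
        fun l hl hs => ?_⟩
      obtain ⟨x, rfl⟩ := exists_ofFn hl
      have h2 := h1 x (smL_ofFn.1 hs)
      have h3 : ofL (n + 2) f x - P265.AS.d y x = 0 := h2
      rw [← toL_d, toL_ofFn, ← sub_eq_zero]
      exact h3
    · rintro ⟨g, -, hv, ε, hε, h1⟩
      refine ⟨ofL (n + 1) g, ⟨fun i => isEmptyElim i, van_ofL hv⟩, fun i => isEmptyElim i, ε, hε,
        fun x hx => ?_⟩
      change ofL (n + 2) f x - P265.AS.d (ofL (n + 1) g) x = 0
      rw [dl_ofL, sub_eq_zero]
      exact h1 _ List.length_ofFn (smL_ofFn.2 hx)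

theorem VanL.sub {f g : List E → k} (hf : VanL A n f) (hg : VanL A n g) :
    VanL A n fun l => f l - g l := by
  obtain ⟨ε, hε, h⟩ := hf
  obtain ⟨ε', hε', h'⟩ := hg
  refine ⟨min ε ε', lt_min hε hε', fun l hl hs => ?_⟩
  simp only [h l hl (hs.mono le_rfl (min_le_left _ _)), h' l hl (hs.mono le_rfl (min_le_right _ _)),
    sub_zero]

theorem VanL.add {f g : List E → k} (hf : VanL A n f) (hg : VanL A n g) :
    VanL A n fun l => f l + g l := by
  obtain ⟨ε, hε, h⟩ := hf
  obtain ⟨ε', hε', h'⟩ := hg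
  refine ⟨min ε ε', lt_min hε hε', fun l hl hs => ?_⟩
  simp only [h l hl (hs.mono le_rfl (min_le_left _ _)), h' l hl (hs.mono le_rfl (min_le_right _ _)),
    add_zero]

theorem VanL.smul {f : List E → k} (c : k) (hf : VanL A n f) : VanL A n fun l => c * f l := by
  obtain ⟨ε, hε, h⟩ := hf
  exact ⟨ε, hε, fun l hl hs => by simp only [h l hl hs, mul_zero]⟩

theorem CocR.sub {f g : List E → k} (hf : CocR X A n f) (hg : CocR X A n g) :
    CocR X A n fun l => f l - g l := ⟨hf.coc.sub hg.coc, hf.van.sub hg.van⟩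

theorem CocR.add {f g : List E → k} (hf : CocR X A n f) (hg : CocR X A n g) :
    CocR X A n fun l => f l + g l := ⟨hf.coc.add hg.coc, hf.van.add hg.van⟩

theorem CocR.smul {f : List E → k} (c : k) (hf : CocR X A n f) :
    CocR X A n fun l => c * f l := ⟨hf.coc.smul c, hf.van.smul c⟩

theorem clsR_add {f g : List E → k} (hf : CocR X A n f) (hg : CocR X A n g) :
    clsR a χ f hf + clsR a χ g hg = clsR a χ _ (hf.add hg) :=
  (H.mk_add (mem_Zc_ofLR a χ hf) (mem_Zc_ofLR a χ hg)).symm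

theorem clsR_sub {f g : List E → k} (hf : CocR X A n f) (hg : CocR X A n g) :
    clsR a χ f hf - clsR a χ g hg = clsR a χ _ (hf.sub hg) :=
  (H.mk_sub (mem_Zc_ofLR a χ hf) (mem_Zc_ofLR a χ hg)).symm

theorem clsR_smul {f : List E → k} (c : k) (hf : CocR X A n f) :
    c • clsR a χ f hf = clsR a χ _ (hf.smul c) :=
  (H.mk_smul c (mem_Zc_ofLR a χ hf)).symm

theorem clsR_eq_clsR {f g : List E → k} {hf : CocR X A n f} {hg : CocR X A n g} :
    clsR a χ f hf = clsR a χ g hg ↔ ExR X A n fun l => f l - g l := by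
  rw [← sub_eq_zero, clsR_sub, clsR_eq_zero]

omit [IsEmpty I] in
theorem VanL.map {F : E → E'} (hF : IsMap a a' X X' F) (hA : A ⊆ X) (hFA : MapsTo F A A')
    {f : List E' → k} (hf : VanL A' n f) : VanL A n fun l => f (l.map F) := by
  obtain ⟨ε, hε, h⟩ := hf
  obtain ⟨δ, hδ, h'⟩ := hF.uc ε hε
  refine ⟨δ, hδ, fun l hl hs => ?_⟩
  refine h _ (by rw [List.length_map, hl]) ⟨fun y hy => ?_, fun y hy y' hy' => ?_⟩
  · obtain ⟨x, hx, rfl⟩ := List.mem_map.1 hy
    exact hFA (hs.1 x hx)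
  · obtain ⟨x, hx, rfl⟩ := List.mem_map.1 hy
    obtain ⟨x', hx', rfl⟩ := List.mem_map.1 hy'
    exact h' x (hA (hs.1 x hx)) x' (hA (hs.1 x' hx')) (hs.2 x hx x' hx')

omit [IsEmpty I] in
theorem CocR.map {F : E → E'} (hF : IsMap a a' X X' F) (hA : A ⊆ X) (hFA : MapsTo F A A')
    {f : List E' → k} (hf : CocR X' A' n f) : CocR X A n fun l => f (l.map F) :=
  ⟨hf.coc.map hF, hf.van.map hF hA hFA⟩

/-- Pull-back of a relative class. -/
theorem pullR_clsR {F : E → E'} (hF : IsMap a a' X X' F) (hA : A ⊆ X) (hFA : MapsTo F A A')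
    {f : List E' → k} (hf : CocR X' A' n f) :
    pullR χ hF hA hFA n (clsR a' χ f hf) = clsR a χ _ (hf.map hF hA hFA) := by
  have e : P265.AS.pb F (ofL (n + 1) f) = ofL (n + 1) fun l => f (l.map F) := by
    funext x
    change f (List.ofFn fun i => F (x i)) = f ((List.ofFn x).map F)
    rw [List.map_ofFn]
    rfl
  rw [clsR, pullR_mk]
  exact mkR_congr e

/-- Restriction of a relative class. -/
theorem resR_clsR (hY : Y ⊆ X) (hB : B ⊆ A) {f : List E → k} (hf : CocR X A n f) :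
    resR hY hB n (clsR a χ f hf) = clsR a χ f (hf.mono hY hB) := rfl

end

section Les

variable {X A : Set E} {n : ℕ}

theorem absE_cls {f : List E → k} (hf : CocL X n f) :
    absE k X n (cls (tr E) (on k) f hf) = clsR (tr E) (on k) f hf.toR := rfl

theorem lesA_clsR {f : List E → k} (hf : CocR X A n f) :
    lesA k X A n (clsR (tr E) (on k) f hf) = clsR (tr E) (on k) f hf.coc.toR := rfl

theorem lesB_clsR (h : A ⊆ X) {f : List E → k} (hf : CocR X ∅ n f) :
    lesB k h n (clsR (tr E) (on k) f hf) = clsR (tr E) (on k) f (hf.mono h subset_rfl) := rfl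

theorem cocR_dl {f : List E → k} (hf : CocL A n f) : CocR X A (n + 1) (dl f) := by
  obtain ⟨ε, hε, h⟩ := hf
  exact ⟨⟨1, one_pos, fun l _ _ => N929.dl_dl f l⟩, ε, hε, h⟩

/-- The connecting map. -/
theorem lesD_clsR {f : List E → k} (hf : CocR A ∅ n f) :
    lesD k X A n (clsR (tr E) (on k) f hf) = clsR (tr E) (on k) (dl f) (cocR_dl hf.coc) := by
  have e : (ASK E k).d n (ofL (n + 1) f) = ofL (n + 2) (dl f) := by
    funext x
    exact dl_ofL f x
  exact mkR_congr e

/-- The connecting map, with a representative which agrees with `dl f` on small lists. -/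
theorem lesD_clsR' {f g : List E → k} (hf : CocR A ∅ n f) (hg : CocR X A (n + 1) g)
    (h : ∃ ε > 0, ∀ l, l.length = n + 2 → SmL X ε l → dl f l = g l) :
    lesD k X A n (clsR (tr E) (on k) f hf) = clsR (tr E) (on k) g hg := by
  rw [lesD_clsR, clsR_eq_clsR]
  obtain ⟨ε, hε, h⟩ := h
  refine ⟨fun _ => 0, fun _ _ => rfl, ⟨1, one_pos, fun _ _ _ => rfl⟩, ε, hε, fun l hl hs => ?_⟩
  rw [PS.dl_zero_fun]
  exact sub_eq_zero.2 (h l hl hs)

end Les

end Vale.Agent.P216.H140
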