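import Vale.Agent.P216.H140.W1
import Vale.Agent.P216.H977C.MainC
import Vale.Agent.P216.C313.EtaNe
import Vale.Agent.P216.H539.V3
import Vale.Agent.P216.H923C.V1

/-!
# P216-C, block C12-MID: the output `MidOutC`
-/

set_option linter.all false

open Set Finsupp BoundedContinuousFunction

namespace Vale.Agent.P216.H140

open Vale.Agent.P216.Sl Vale.Agent.P216.PS Vale.Agent.P216.H133C Vale.Agent.P216.H977C
open Vale.Agent.P216.N929 (Coc Fine Tau Scl Cy stp Geo exists_scl cutMod)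

variable {M : Type} [MetricSpace M] [CompactSpace M] {d h : ℕ}

/-- `η` is not exact, uniformly. -/
def EtaNe (C : CellDec M d h) : Prop :=
  ∃ B : ℝ, ∀ (k : Type) [Field k], (2 : k) ≠ 0 → ∀ (S : KSeq k C) (N : ℕ),
    1 / ((N : ℝ) + 1) < S.ε / 4 → ∀ (a b : M) (t : ℝ), B ≤ t →
      ¬ ExL (P a b t) (d - 1) (eta N S.ξ)

theorem midOutC_of' [SimplyConnectedSpace M] (C : CellDec M d h) (hd : 2 ≤ d) (hh : 1 ≤ h)
    (hR : RingOut M C) (hV1 : V1) (hV3 : V3) (hEN : EtaNe C) :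
    MidOutC C (d - 1) (d * (h + 1) - 2) := by
  intro G hG
  obtain ⟨u, hu⟩ := w1_ne C hd hh (G.hr.trans G.hrρ) G.seg hV1 hV3 hEN
  refine ⟨u, Nat.cast_nonneg u, fun k _ h2 τ hτ => ?_⟩
  obtain ⟨S⟩ := C337.kSeqOut M d h C (by omega) hR k h2
  have hε4 : 0 < S.ε / 4 := by have := S.hε; linarith
  obtain ⟨N, hN⟩ := exists_nat_one_div_lt (K := ℝ) hε4
  have hc : Coc (univ : Set M) S.ε (d - 1 + 1) S.ξ := by
    rw [Nat.sub_add_cancel (by omega)]
    exact S.cξ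
  have hdh : d * (h + 1) = d * h + d := by ring
  refine ⟨etaE N S.nξ S.hε hc hN, etaE_add N S.nξ S.hε hc hN, ?_⟩
  refine mid_of G τ (etaE N S.nξ S.hε hc hN) (Nat.cast_nonneg u) (by omega) fun b => ?_
  obtain ⟨η₀, hs⟩ := exists_scl (ε := S.ε / 4) τ G.h1r (cutMod G.seg G.hr G.hrρ (G.y !b)) hε4
  obtain ⟨N', hN'⟩ := exists_nat_one_div_lt (K := ℝ) hs.pos
  refine ⟨1 / ((N' : ℝ) + 1), by positivity, η₀, hs, hN', ?_⟩
  exact hu k h2 S N hN (G.y !b) (G.y b) G.ρ₁ G.r τ G.hr G.hrρ G.h1r (hτ _) (G.hy b) (hG !b) N' η₀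
    hs hN'

/-- **C12-MID**: the output for `M` with handles of the indices `d j` and a ring class. -/
theorem midOutC [SimplyConnectedSpace M] (C : CellDec M d h) (hd : 2 ≤ d) (hh : 1 ≤ h)
    (hR : RingOut M C) : MidOutC C (d - 1) (d * (h + 1) - 2) := by
  intro G hG
  obtain ⟨B, -, hB⟩ := C313.eta_ne C hd hh (G.hr.trans G.hrρ) G.seg
  exact midOutC_of' C hd hh hR H923C.v1 W539.v3 ⟨B, fun k _ h2 S N hN a b t ht =>
    hB k h2 S N hN a b t ht⟩ G hG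

end Vale.Agent.P216.H140
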