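import Vale.Agent.P216.H140.EtaInv
import Vale.Agent.P216.H140.StepA
import Vale.Agent.P216.C313.HypInst
import Vale.Agent.P216.C337.KSeq
import Vale.Agent.P216.H977C.Eta

/-!
# P216-C, block C12-MID: `W_1 ≠ 0`

`w1_ne`: for crossing points `p` in the interior of the top handle, the class
`∫ τ(w σ, p) ∪ η (w|[0, σ] · segment)` is not exact on the loops at `q` of duration `u`; `u` does not
depend on the field.
-/

set_option linter.all false

open Set Finsupp BoundedContinuousFunction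

namespace Vale.Agent.P216.H140

open Vale.Agent.P216.AS Vale.Agent.P216.H901 Vale.Agent.P216.H83 Vale.Agent.P216.Sl
open Vale.Agent.P216.H456 Vale.Agent.P216.H456C Vale.Agent.P216.MV337 Vale.Agent.P216.H133C
open Vale.Agent.P216.PS Vale.Agent.P216.C313
open Vale.Agent.P216.N929 (Coc Fine Tau Scl Cy stp)
open Vale.Agent.P216.H754B (rv rv_apply rv_mem_P dist_rv_le lip_rv)

variable {M : Type} [MetricSpace M] [CompactSpace M] {d h : ℕ} {k : Type} [Field k]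

/-- The restriction of a class to the handle of index `0`. -/
theorem toZero_clsR {C : CellDec M d h} {q : M} {r : ℕ} {t : ℝ} (ht : 0 < t)
    {f : List (ℝ →ᵇ M) → k} : ∀ (j : ℕ) (hf : CocR (Xf C q (j + 1) t) ∅ r f),
    (lad C q k).toZero j r t ht (clsR (tr (ℝ →ᵇ M)) (on k) f hf) =
      clsR (tr (ℝ →ᵇ M)) (on k) f (hf.mono (X_le C q (by omega) t : Xf C q 1 t ⊆ _) subset_rfl) := by
  intro j
  induction j with
  | zero => intro hf; rfl
  | succ j ih =>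
    intro hf
    exact ih (hf.mono (X_le C q (by omega) t) subset_rfl)

theorem _root_.Vale.Agent.P216.Sl.ExL.toR {E : Type} [PseudoMetricSpace E] {X : Set E} {n : ℕ}
    {f : List E → k} (h : ExL X n f) : ExR X ∅ n f := by
  obtain ⟨g, hg, h⟩ := h
  refine ⟨g, hg, ?_, h⟩
  rcases n with _ | n
  · exact ⟨1, one_pos, fun l _ _ => hg rfl l⟩
  · exact vanL_empty

/-- The slices of a Thom cochain. -/
theorem slice_cocL {n : ℕ} {ρ₁ : ℝ} (τ : Tau k M n ρ₁) (p : M) :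
    CocL (univ : Set M) n fun l => τ.f (l.map fun x => (x, p)) := by
  refine ⟨τ.ε, τ.hε, fun l hl hs => ?_⟩
  rw [N929.dl_map τ.f fun x => (x, p)]
  refine τ.coc _ (by rw [List.length_map, hl]) ⟨fun _ _ => mem_univ _, fun a ha b hb => ?_⟩
  obtain ⟨x, hx, rfl⟩ := List.mem_map.1 ha
  obtain ⟨y, hy, rfl⟩ := List.mem_map.1 hb
  rw [Prod.dist_eq, dist_self, max_eq_left dist_nonneg]
  exact hs.2 x hx y hy

/-- Pull-back of exactness by the reversal. -/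
theorem exL_rv {a b : M} {u : ℝ} {n : ℕ} {f : List (ℝ →ᵇ M) → k} (h : ExL (P a b u) n f) :
    ExL (P b a u) n fun l => f (l.map (rv u)) := by
  obtain ⟨g, hg, ε, hε, h⟩ := h
  refine ⟨fun l => g (l.map (rv u)), fun h0 l => hg h0 _, ε, hε, fun l hl hs => ?_⟩
  rw [N929.dl_map g (rv u)]
  refine h _ (by rw [List.length_map, hl]) ⟨fun w hw => ?_, fun w hw w' hw' => ?_⟩
  · obtain ⟨v, hv, rfl⟩ := List.mem_map.1 hw
    exact rv_mem_P (hs.1 v hv) le_rfl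
  · obtain ⟨v, hv, rfl⟩ := List.mem_map.1 hw
    obtain ⟨v', hv', rfl⟩ := List.mem_map.1 hw'
    exact (dist_rv_le u v v').trans_lt (hs.2 v hv v' hv')

/-- **`W_1 ≠ 0`.** -/
theorem w1_ne [SimplyConnectedSpace M] (C : CellDec M d h) (hd : 2 ≤ d) (hh : 1 ≤ h) {ρ₀ : ℝ}
    (hρ : 0 < ρ₀) (hU : LS.UniqSeg M ρ₀) (hV1 : V1) (hV3 : V3)
    (hEN : ∃ B : ℝ, ∀ (k : Type) [Field k], (2 : k) ≠ 0 → ∀ (S : KSeq k C) (N : ℕ),
      1 / ((N : ℝ) + 1) < S.ε / 4 → ∀ (a b : M) (t : ℝ), B ≤ t →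
        ¬ ExL (P a b t) (d - 1) (eta N S.ξ)) :
    ∃ u : ℕ, ∀ (k : Type) [Field k], (2 : k) ≠ 0 → ∀ (S : KSeq k C) (Nη : ℕ),
      1 / ((Nη : ℝ) + 1) < S.ε / 4 → ∀ (p q : M) (ρ₁ r : ℝ) (τ : Tau k M (d * h) ρ₁),
      0 < r → r < ρ₀ → ρ₁ < r →
      (¬ ExL (univ : Set M) (d * h) fun l => τ.f (l.map fun x => (x, p))) →
      ρ₁ ≤ dist q p → (∀ x ∈ C.L h, ρ₁ ≤ dist x p) → ∀ (N : ℕ) (η₀ : ℝ),
      Scl τ r p (S.ε / 4) η₀ → 1 / ((N : ℝ) + 1) < η₀ →
      ¬ ExL (P q q u) (d * (h + 1) - 2)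
        (stp (d * h) τ.f r (1 / ((N : ℝ) + 1)) p (eta Nη S.ξ)) := by
  obtain ⟨h', rfl⟩ := Nat.exists_eq_succ_of_ne_zero (show h ≠ 0 by omega)
  obtain ⟨K, m, hK, hmK, hTr, hY⟩ := exists_hyp C hd hρ hU H977C.etaOut C337.excL
  obtain ⟨B, hB⟩ := hEN
  -- the degrees
  set n := d * (h' + 1) with hn
  have hn2 : d * (h' + 1 + 1) = n + d := by rw [hn]; ring
  set D' := d * (h' + 1 + 1) - 2 with hD'
  have hnd : 2 ≤ n := by
    have : d * 1 ≤ d * (h' + 1) := Nat.mul_le_mul_left d (by omega)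
    omega
  have hDn : D' + 1 = n + (d - 1) := by omega
  have hr' : D' + 1 = (h' + 1) * (d - 1 + 1) + (d - 1) := by
    have e1 : d - 1 + 1 = d := by omega
    rw [e1, Nat.mul_comm (h' + 1) d]
    omega
  -- the levels
  set c₁ : ℝ := Lad.cm (h' + 1) K D' + K with hc₁
  set t'' : ℕ := ⌈B⌉₊ + 1 with ht''
  set Lv : ℕ := ⌈(h' : ℝ) * c₁⌉₊ + (t'' + m) with hLv
  refine ⟨Lv + m, fun k _ h2 S Nη hNη p q ρ₁ r τ hr hrρ h1r hτ hqp hLp N η₀ hs hN hW => ?_⟩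
  obtain ⟨-, -, hcoc, hfr, hbk⟩ := H977C.etaOut k M d Nη S.ε S.ξ hd S.hε S.nξ S.cξ hNη
  set g := eta Nη S.ξ with hg
  set V := VV n τ.f g r p N (Lv + m + m) with hV
  have hη₀ : 0 < η₀ := hs.pos
  have hLv0 : (0 : ℝ) < Lv := by
    rw [hLv, ht'']
    push_cast
    positivity
  have hTv : ((t'' : ℝ) + m) ≤ Lv := by
    rw [hLv]
    push_cast
    have : (0 : ℝ) ≤ (⌈(h' : ℝ) * c₁⌉₊ : ℝ) := by positivity
    linarith
  have hm0 : (0 : ℝ) ≤ m := Nat.cast_nonneg m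
  -- `dl V = ± Θ`
  have hdV : ∀ l : List (ℝ →ᵇ M), l.length = n + (d - 1) + 1 →
      Fine (PF q ((Lv + m + m : ℕ) : ℝ)) η₀ l →
      dl V l = (-1) ^ (n + (d - 1) + 1) * Th n τ.f g r p (Lv + m + m) l :=
    hV1 k M n (d - 1) N (Lv + m + m) ρ₀ ρ₁ r (S.ε / 4) η₀ p q τ g hU hr hrρ (by omega) hs
      (fun T => hcoc q p T) hN hqp
  -- `V` is closed on the paths which start in `L h`
  have hVc : ∀ t : ℝ, t ≤ ((Lv + m + m : ℕ) : ℝ) → CocL (Xf C q (h' + 1) t) D' V := by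
    intro t ht
    refine ⟨η₀, hη₀, fun l hl hsm => ?_⟩
    rw [hdV l (by omega) ⟨fun w hw => PF_mono ht (hsm.1 w hw).1, hsm.2⟩, Th,
      N929.intg_zero τ (by
        intro h0
        rw [List.map_eq_nil_iff] at h0
        subst h0
        simp at hl) fun x hx => ?_, mul_zero]
    obtain ⟨w, hw, rfl⟩ := List.mem_map.1 hx
    change ρ₁ ≤ dist (rv _ w _) p
    rw [rv_apply, sub_self]
    exact hLp _ (hsm.1 w hw).2
  -- (A) exactness over the handle `0`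
  obtain ⟨Tk₀, hTk₀⟩ := hTr q 0 (Nat.zero_le _)
  let C₀ : Cell M 0 (C.D 0) (C.D 0 ∩ C.L 0) := C.cellL (Nat.zero_le _)
  have hp₀ : C₀.ψ Fin.elim0 ∈ C.D 0 := C₀.ψ_mem _ fun i => i.elim0
  have hS0 : C.D 0 ∩ C.L 0 = ∅ := by rw [C.L_zero, inter_empty]
  have hYX : ∀ t, Xf C q 1 t = ovr evz (fun t => PF q t) (C.D 0) t := by
    intro t
    rw [X_succ C q 0, X_zero, empty_union]
  have hA : ExL (Xf C q 1 (Lv : ℝ)) D' V := by
    rw [hYX]
    refine stepA C₀ (C.closed 0) hS0 (a := q) (s := ((Lv + m : ℕ) : ℝ))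
      (t := ((Lv + m + m : ℕ) : ℝ)) hTk₀ hLv0 (by push_cast; linarith) (by push_cast; linarith)
      ?_ ?_
    · rw [← hYX]
      exact (hVc _ le_rfl).mono (X_le C q (by omega) _)
    · obtain ⟨s, hs0, ε, hε, hW⟩ := exL_rv hW
      refine ⟨s, hs0, ε, hε, fun l hl hsm => ?_⟩
      rw [← hW l hl hsm]
      refine hV3 k M n N (Lv + m) m ρ₁ r q p q τ g hnd hqp
        (fun σ => Tk₀ (C₀.ψ Fin.elim0) (m - (m - σ)))
        (fun z => lback Tk₀ m (C₀.ψ Fin.elim0, z)) l (by omega) fun w hw => ⟨hsm.1 w hw, ?_, ?_⟩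
      · intro σ hσ
        change lback Tk₀ m (C₀.ψ Fin.elim0, w) σ = _
        rw [lback_applyB (p := (C₀.ψ Fin.elim0, w)) hTk₀ hp₀ (hsm.1 w hw), lj_left hσ]
      · intro σ hσ
        change lback Tk₀ m (C₀.ψ Fin.elim0, w) σ = _
        rw [lback_applyB (p := (C₀.ψ Fin.elim0, w)) hTk₀ hp₀ (hsm.1 w hw)]
        rcases hσ.eq_or_lt with rfl | hσ
        · rw [lj_left le_rfl, sub_self, eq_left (hsm.1 w hw) le_rfl]
          exact hTk₀.right _ hp₀ _ (by linarith)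
        · rw [lj, if_neg (by linarith)]
  -- (B) exactness over `L h`
  have hBx : ExL (Xf C q (h' + 1) ((t'' : ℝ) + m)) D' V := by
    obtain ⟨Y, -⟩ := hY k h2 S Nη hNη q
    obtain ⟨c, hc, hinj⟩ := Lad.mid_inj Y hr'
    have hc1 : c = c₁ := hc
    have hx : CocR (Xf C q (h' + 1) (Lv : ℝ)) ∅ D' V :=
      (hVc _ (by push_cast; linarith)).toR
    have ht0 : (0 : ℝ) < (t'' : ℝ) + m := by
      rw [ht'']
      push_cast
      positivity
    have h0 := hinj ((t'' : ℝ) + m) (Lv : ℝ) ht0 hTv hLv0 (by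
        rw [hc1, hLv]
        push_cast
        linarith [Nat.le_ceil ((h' : ℝ) * c₁)])
      (clsR (tr (ℝ →ᵇ M)) (on k) V hx)
      ((toZero_clsR hLv0 h' hx).trans (clsR_eq_zero.2 hA.toR))
    have h1 : clsR (tr (ℝ →ᵇ M)) (on k) V (hx.mono (mono_X C q (h' + 1) _ _ ht0 hTv)
        subset_rfl) = 0 := h0
    exact (clsR_eq_zero.1 h1).exL
  -- (D) the slant
  obtain ⟨Tk, hTk⟩ := hTr p (h' + 1) le_rfl
  obtain ⟨s, -, ε, hε, hVs⟩ := hBx
  have hD := stepD (k := k) (n := n) (e := d - 1) (T := Lv + m + m) (t'' := t'') (c := m)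
    (by omega) (by omega) h1r hη₀ (p := p) (q := q) τ (g := g) (V := V) (s := s)
    (κ := (-1) ^ (n + (d - 1) + 1)) (pow_ne_zero _ (neg_ne_zero.2 one_ne_zero))
    (C.closed (h' + 1)) (S := C.D (h' + 1) ∩ C.L (h' + 1)) inter_subset_left hTk
    (fun l hl hf => hdV l hl (hf.mono (PF_mono (by push_cast; linarith)) le_rfl))
    ⟨ε, hε, fun l hl hsm => hVs l (by omega) (hsm.mono (fun w hw => ⟨hw.1, hw.2.2⟩) le_rfl)⟩
    (fun v hv hvp t ht htz => eta_inv hfr hbk hU hr hrρ hTk (by omega) hv hvp (by omega) htz)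
    (hB k h2 S Nη hNη q p t'' (by
      rw [ht'']
      push_cast
      linarith [Nat.le_ceil B]))
  -- excision
  have hcR : CocR (C.L (h' + 1 + 1)) (C.L (h' + 1)) n fun l => τ.f (l.map fun x => (x, p)) := by
    refine ⟨(slice_cocL τ p).mono (subset_univ _), 1, one_pos, fun l hl hsm => ?_⟩
    obtain ⟨x, l, rfl⟩ := List.exists_cons_of_length_pos (l := l) (by omega)
    exact τ.supp _ ⟨(x, p), by simp, hLp x (hsm.1 x List.mem_cons_self)⟩
  have hfin := (C337.excL M d (h' + 1) C k h2 (h' + 1) le_rfl n _ hcR hD).exL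
  rw [C.L_top] at hfin
  exact hτ hfin

end Vale.Agent.P216.H140
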