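import Vale.Agent.P216.N929.Fib0

/-!
# Slant products of list cochains by cycles
-/

open Finsupp

namespace Vale.Agent.P216.H140

open Vale.Agent.P216.Sl Vale.Agent.P216.N929

variable {k : Type} [Field k] {α β : Type}

/-- The slant product by a cycle of positive degree commutes with the differential. -/
theorem dl_fibC {q : ℕ} (hq : 1 ≤ q) {u : Ch k β} (hu : u ∈ Sp k (Ln (q + 1))) (hb : bd u = 0)
    (f : List (α × β) → k) {l : List α} (hl : l ≠ []) :
    dl (fib u f) l = fib u (dl f) l := by
  have h1 : dl (fib u f) l = ev f (sh (bd (single l 1)) u) := by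
    rw [dl, ev_fib, bd_single, one_smul]
  obtain ⟨p, hp⟩ : ∃ p, l.length = p + 1 :=
    ⟨l.length - 1, by have := List.length_pos_iff.2 hl; omega⟩
  have h2 := bd_sh (k := k) (p := p) (q := q) (by omega)
    (single_mem (P := Ln (p + 1)) (l := l) hp 1) hu
  rw [hb, map_zero, smul_zero, add_zero] at h2
  rw [h1, ← h2, ← ev_dl]
  rfl

/-- Front formula: the first factor only depends on the base. -/
theorem fib_front {f : List α → k} (hf : Nrm f) (g : List (α × β) → k) {n q : ℕ} (hq : 1 ≤ q)
    {u : Ch k β} (hu : u ∈ Sp k (Ln (q + 1))) {l : List α} (hl : l.length = n + 1) {v : α}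
    (hv : l.drop n = [v]) :
    fib u (fun L => f ((L.take (n + 1)).map Prod.fst) * g (L.drop n)) l =
      f l * ev (fun t => g (t.map fun z => (v, z))) u := by
  have h1 : ∀ t : List β, t.length = q + 1 →
      ev (fun L => f ((L.take (n + 1)).map Prod.fst) * g (L.drop n)) (Sh l t) =
        f l * g (t.map fun z => (v, z)) := by
    intro t ht
    rw [front_left hf g n l t (by omega) (by rintro rfl; simp at hl)
      (by rintro rfl; simp at ht), if_pos (by omega), List.take_of_length_le (by omega), hv]
    congr 1
    have h2 := sh_point_left (k := k) v (single_mem (P := Ne) (l := t) (by rintro rfl; simp at ht) 1)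
    rw [sh_single, mp_single] at h2
    rw [h2, ev_single, one_mul]
  have := eq_of_mem (P := Ln (q + 1))
    (F := ev (fun L => f ((L.take (n + 1)).map Prod.fst) * g (L.drop n)) ∘ₗ
      (sh (k := k) (single l 1)))
    (G := f l • ev (fun t => g (t.map fun z => (v, z))))
    (fun t ht => by
      rw [LinearMap.comp_apply, sh_single, h1 t ht, LinearMap.smul_apply, ev_single, one_mul,
        smul_eq_mul]) hu
  exact this

end Vale.Agent.P216.H140
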