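import Vale.Agent.P216.H140.W1Defs
import Vale.Agent.P216.H140.Slant

/-!
# P216-C, block C12-MID, `W_1 ≠ 0`: slant of the relation over the top handle

`stepD`: if `dl V = ± Θ` and `V = dl s` on the paths which start in `S ⊆ D`, the slant by a fine
cycle `u` of paths with `g(u) ≠ 0` shows that `τ(., p)` is exact on `(D, S)`.
-/

set_option linter.all false

open Set Finsupp BoundedContinuousFunction

namespace Vale.Agent.P216.H140

open Vale.Agent.P216.PS Vale.Agent.P216.Sl Vale.Agent.P216.H456 Vale.Agent.P216.MV337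
open Vale.Agent.P216.H456C Vale.Agent.P216.H901
open Vale.Agent.P216.N929 (Coc Fine Tau Scl Cy not_ex_iff)
open Vale.Agent.P216.H754B (rv rv_apply rv_mem_P dist_rv_le)

variable {k : Type} [Field k] {M : Type} [MetricSpace M] [CompactSpace M]

theorem rv_rv (t : ℝ) (w : ℝ →ᵇ M) : rv t (rv t w) = w := by
  ext u
  rw [rv_apply, rv_apply]
  congr 1
  ring

theorem mp_rv_rv (t : ℝ) (z : Ch k (ℝ →ᵇ M)) : mp (rv t) (mp (rv t) z) = z := by
  have := lin_ext_apply (f := (mp (k := k) (rv (M := M) t)) ∘ₗ mp (rv t)) (g := LinearMap.id)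
    (fun l => by
      rw [LinearMap.comp_apply, mp_single, mp_single, List.map_map, LinearMap.id_apply]
      congr 1
      conv_rhs => rw [← List.map_id l]
      exact List.map_congr_left fun w _ => rv_rv t w) z
  simpa using this

/-- The reversal of a fine cycle. -/
theorem cy_rv {a b : M} {t η : ℝ} {m : ℕ} {z : Ch k (ℝ →ᵇ M)} (hz : Cy (P a b t) η m z) :
    Cy (P b a t) η m (mp (rv t) z) := by
  constructor
  · refine map_mem _ (fun l hl => ?_) hz.1
    rw [mp_single]
    refine single_mem ⟨by rw [List.length_map]; exact hl.1, fun w hw => ?_, fun w hw w' hw' => ?_⟩ _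
    · obtain ⟨v, hv, rfl⟩ := List.mem_map.1 hw
      exact rv_mem_P (hl.2.1 v hv) le_rfl
    · obtain ⟨v, hv, rfl⟩ := List.mem_map.1 hw
      obtain ⟨v', hv', rfl⟩ := List.mem_map.1 hw'
      exact (dist_rv_le t v v').trans_lt (hl.2.2 v hv v' hv')
  · rw [bd_mp]
    refine map_mem _ (fun l hl => ?_) hz.2
    rw [mp_single]
    exact single_mem (by change (l.map _).length = 0; rw [List.length_map]; exact hl) _

theorem stepD {n e T t'' c : ℕ} (hn : 1 ≤ n) (he : 1 ≤ e) {ρ₁ r η₀ : ℝ} (h1r : ρ₁ < r)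
    (hη₀ : 0 < η₀) {p q : M}
    (τ : Tau k M n ρ₁) {g V s : List (ℝ →ᵇ M) → k} {κ : k} (hκ : κ ≠ 0)
    {D S : Set M} (hD : IsClosed D) (hSD : S ⊆ D) {Tk : M → ℝ → M} (hT : Tr D p c Tk)
    (hV : ∀ l : List (ℝ →ᵇ M), l.length = n + e + 1 → Fine (PF q ((t'' : ℝ) + c)) η₀ l →
      dl V l = κ * Th n τ.f g r p T l)
    (hs : ∃ ε > 0, ∀ l : List (ℝ →ᵇ M), l.length = n + e →
      SmL (ovr evz (fun t => PF q t) S ((t'' : ℝ) + c)) ε l → V l = dl s l)
    (hg : ∀ v ∈ D, dist v p ≤ r → ∀ t : List (ℝ →ᵇ M), t.length = e + 1 →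
      (∀ z ∈ t, z ∈ P p q t'') →
      g (t.map fun z => N929.cutp r p (rv T (lback Tk c (v, z)), (T : ℝ))) = g (t.map (rv t'')))
    (hu : ¬ ExL (P q p t'') e g) :
    ExR D S n fun l => τ.f (l.map fun x => (x, p)) := by
  classical
  obtain ⟨ε, hε, hs⟩ := hs
  have ht0 : (0 : ℝ) ≤ t'' := by positivity
  have hc0 : (0 : ℝ) ≤ c := by positivity
  -- uniform continuity of the family
  have hcomp : IsCompact (D ×ˢ P p q (t'' : ℝ)) := hD.isCompact.prod (isCompact_P _ _ _)
  have huc := hcomp.uniformContinuousOn_of_continuous (continuousOn_lbackB (b := q) hT ht0)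
  rw [Metric.uniformContinuousOn_iff] at huc
  obtain ⟨δ, hδ, huc⟩ := huc (min ε η₀) (lt_min hε hη₀)
  obtain ⟨u', hu', hne⟩ := not_ex_iff.1 hu δ hδ
  set u : Ch k (ℝ →ᵇ M) := mp (rv t'') u' with hu_def
  have hu : Cy (P p q t'') δ e u := cy_rv hu'
  have hbu : bd u = 0 := N929.bd_eq_zero hu (by omega)
  have huL : u ∈ Sp k (Ln (e + 1)) := Sp_mono (fun l hl => hl.1) hu.1
  -- the primitive
  let G : M × (ℝ →ᵇ M) → ℝ →ᵇ M := lback Tk c
  let F' : List (M × (ℝ →ᵇ M)) → k := fun L => V (L.map G) - dl s (L.map G)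
  set lam : k := ev g u' with hlam
  -- the family on small lists
  have hmem : ∀ {X : Set M}, X ⊆ D → ∀ {l : List M}, (∀ x ∈ l, x ∈ X) → ∀ {t : List (ℝ →ᵇ M)},
      (∀ z ∈ t, z ∈ P p q t'') → ∀ {L : List (M × (ℝ →ᵇ M))}, Gr l t L → ∀ w ∈ L.map G,
      w ∈ ovr evz (fun t => PF q t) X ((t'' : ℝ) + c) := by
    intro X hX l hl t ht L hL w hw
    obtain ⟨x, hx, rfl⟩ := List.mem_map.1 hw
    have h1 := hl _ (hL.2 x hx).1
    have h2 := ht _ (hL.2 x hx).2
    refine ⟨(lback_memDB hT ht0 (hX h1) h2).1, ?_⟩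
    change lback Tk c x 0 ∈ X
    rw [lback_zeroB hT ht0 (hX h1) h2]
    exact h1
  have hfine : ∀ {l : List M}, SmL D δ l → ∀ {t : List (ℝ →ᵇ M)}, Fine (P p q t'') δ t →
      ∀ {L : List (M × (ℝ →ᵇ M))}, Gr l t L → ∀ w ∈ L.map G, ∀ w' ∈ L.map G,
      dist w w' < min ε η₀ := by
    intro l hl t ht L hL w hw w' hw'
    obtain ⟨x, hx, rfl⟩ := List.mem_map.1 hw
    obtain ⟨y, hy, rfl⟩ := List.mem_map.1 hw'
    have hx' := hL.2 x hx
    have hy' := hL.2 y hy
    refine huc x ⟨hl.1 _ hx'.1, ht.1 _ hx'.2⟩ y ⟨hl.1 _ hy'.1, ht.1 _ hy'.2⟩ ?_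
    rw [Prod.dist_eq]
    exact max_lt (hl.2 _ hx'.1 _ hy'.1) (ht.2 _ hx'.2 _ hy'.2)
  by_cases hlam0 : lam = 0
  · exact absurd hlam0 hne
  refine ⟨fun l => (κ * lam)⁻¹ * N929.fib u F' l, fun h0 => absurd h0 (by omega),
    ⟨δ, hδ, fun l hl hsm => ?_⟩, δ, hδ, fun l hl hsm => ?_⟩
  · have : N929.fib u F' l = 0 := by
      refine N929.fib_eq_zero hu.1 fun t ht L hL => sub_eq_zero.2 (hs _ ?_ ⟨?_, ?_⟩)
      · have := hL.1
        rw [List.length_map]
        omega
      · exact hmem hSD hsm.1 ht.2.1 hL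
      · exact fun w hw w' hw' => (hfine (hsm.mono hSD le_rfl) ht.2 hL w hw w' hw').trans_le
          (min_le_left _ _)
    change (κ * lam)⁻¹ * N929.fib u F' l = 0
    rw [this, mul_zero]
  · have hl0 : l ≠ [] := by rintro rfl; simp at hl
    obtain ⟨v, hv⟩ : ∃ v, l.drop n = [v] := List.length_eq_one_iff.1 (by
      rw [List.length_drop]; omega)
    have hvl : v ∈ l := List.mem_of_mem_drop (i := n) (by rw [hv]; exact List.mem_singleton_self v)
    have hvD : v ∈ D := hsm.1 v hvl
    have e0 : dl (fun l => (κ * lam)⁻¹ * N929.fib u F' l) l = (κ * lam)⁻¹ * N929.fib u (dl F') l := by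
      rw [N929.dl_smul_fun, dl_fibC he huL hbu F' hl0]
    -- `dl F' = κ Θ` on the grid
    let f : List M → k := fun l => τ.f (l.map fun x => (x, p))
    let g' : List (M × (ℝ →ᵇ M)) → k := fun L =>
      g (L.map fun x => N929.cutp r p (rv T (G x), (T : ℝ)))
    have e1 : N929.fib u (dl F') l = N929.fib u (fun L => κ * (f ((L.take (n + 1)).map Prod.fst) *
        g' (L.drop n))) l := by
      refine N929.fib_congr hu.1 fun t ht L hL => ?_
      have hlen : L.length = n + e + 1 := by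
        have := hL.1
        omega
      have h1 : dl F' L = dl V (L.map G) := by
        have h2 : dl F' L = dl (fun L => V (L.map G)) L - dl (fun L => dl s (L.map G)) L := by
          have h3 : F' = fun L => V (L.map G) + (-1) * dl s (L.map G) := by
            funext L
            change V (L.map G) - dl s (L.map G) = _
            ring
          rw [h3, N929.dl_add_fun, N929.dl_smul_fun]
          ring
        rw [h2, N929.dl_map V G, N929.dl_map (dl s) G, N929.dl_dl, sub_zero]
      have hmD := hmem subset_rfl hsm.1 ht.2.1 hL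
      rw [h1, hV (L.map G) (by rw [List.length_map]; exact hlen)
        ⟨fun w hw => (hmD w hw).1, fun w hw w' hw' =>
          (hfine hsm ht.2 hL w hw w' hw').trans_le (min_le_right _ _)⟩]
      congr 1
      rw [Th, N929.intg, N929.cup]
      congr 1
      · rw [List.map_map, ← List.map_take, List.map_map]
        change _ = τ.f (((L.take (n + 1)).map Prod.fst).map fun x => (x, p))
        rw [List.map_map]
        refine congrArg τ.f (List.map_congr_left fun x hx => ?_)
        have hx' := hL.2 x (List.mem_of_mem_take hx)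
        change (rv T (lback Tk c x) T, p) = (x.1, p)
        rw [rv_apply, sub_self, lback_zeroB hT ht0 (hsm.1 _ hx'.1) (ht.2.1 _ hx'.2)]
      · rw [List.map_map, ← List.map_drop, List.map_map]
        rfl
    have e2 : N929.fib u (fun L => κ * (f ((L.take (n + 1)).map Prod.fst) * g' (L.drop n))) l =
        κ * (f l * ev (fun t => g' (t.map fun z => (v, z))) u) := by
      rw [N929.fib_smul_fun, fib_front (τ.nrm.map fun x => (x, p)) g' he huL hl hv]
    have hf : (fun l => τ.f (l.map fun x => (x, p))) l = f l := rfl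
    rw [hf, e0, e1, e2]
    by_cases hf0 : f l = 0
    · rw [hf0]; ring
    · have hvp : dist v p ≤ r := by
        by_contra hcon
        refine hf0 (τ.supp _ ⟨(v, p), List.mem_map.2 ⟨v, hvl, rfl⟩, ?_⟩)
        change ρ₁ ≤ dist v p
        linarith [not_le.1 hcon]
      have e3 : ev (fun t => g' (t.map fun z => (v, z))) u = lam := by
        have h4 : ev (fun t => g' (t.map fun z => (v, z))) u = ev (fun t => g (t.map (rv t''))) u := by
          refine ev_congr (fun t ht => ?_) hu.1
          change g ((t.map fun z => (v, z)).map _) = _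
          rw [List.map_map]
          exact hg v hvD hvp t ht.1 ht.2.1
        rw [h4, hlam, ← ev_mp, hu_def, mp_rv_rv]
      rw [e3]
      have : κ * lam ≠ 0 := mul_ne_zero hκ hlam0
      field_simp

end Vale.Agent.P216.H140
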