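import Vale.Agent.P216.H140.MidDefs
import Vale.Agent.P216.N929.Gen
import Vale.Agent.P216.H754B.Rev

/-!
# P216-C, block C12-MID, `W_1 ≠ 0`: definitions and exact statements of the pieces
-/

open Set Finsupp BoundedContinuousFunction

namespace Vale.Agent.P216.H140

open Vale.Agent.P216.PS Vale.Agent.P216.Sl Vale.Agent.P216.H456 Vale.Agent.P216.MV337
open Vale.Agent.P216.N929 (Coc Fine Tau Scl)
open Vale.Agent.P216.H754B (rv)

section

variable {k : Type} [Field k] {M : Type} [MetricSpace M] [CompactSpace M]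

/-- The fibre integral over `[0, T]` (mesh `1 / (N + 1)`) of the integrand of `stp`, on the
reversed paths; `T` a natural number. -/
noncomputable def VV (n : ℕ) (τ : List (M × M) → k) (g : List (ℝ →ᵇ M) → k) (r : ℝ) (p : M)
    (N T : ℕ) : List (ℝ →ᵇ M) → k :=
  fun l => N929.fib (N929.mesh k (1 / ((N : ℝ) + 1)) (T * (N + 1))) (N929.intg n τ g r p) (l.map (rv T))

/-- The value of the integrand at the end. -/
noncomputable def Th (n : ℕ) (τ : List (M × M) → k) (g : List (ℝ →ᵇ M) → k) (r : ℝ) (p : M)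
    (T : ℕ) : List (ℝ →ᵇ M) → k :=
  fun l => N929.intg n τ g r p (l.map fun w => (rv T w, (T : ℝ)))

end

/-- **[V1]** `dl V = ± Θ` on the paths with free start and end `q`. -/
def V1 : Prop := ∀ (k M : Type) [Field k] [MetricSpace M] [CompactSpace M] (n e N T : ℕ)
  (ρ₀ ρ₁ r ε η₀ : ℝ) (p q : M) (τ : Tau k M n ρ₁) (g : List (ℝ →ᵇ M) → k),
  LS.UniqSeg M ρ₀ → 0 < r → r < ρ₀ → 1 ≤ n → Scl τ r p ε η₀ → (∀ T, Coc (P q p T) ε e g) →
  1 / ((N : ℝ) + 1) < η₀ → ρ₁ ≤ dist q p →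
  ∀ l : List (ℝ →ᵇ M), l.length = n + e + 1 → Fine (PF q T) η₀ l →
    dl (VV n τ.f g r p N T) l = (-1) ^ (n + e + 1) * Th n τ.f g r p T l

/-- **[V3]** a fixed path of integer duration `c` in front of the paths from `a` to `q`. -/
def V3 : Prop := ∀ (k M : Type) [Field k] [MetricSpace M] [CompactSpace M] (n N u c : ℕ)
  (ρ₁ r : ℝ) (a p q : M) (τ : Tau k M n ρ₁) (g : List (ℝ →ᵇ M) → k), 2 ≤ n → ρ₁ ≤ dist a p →
  ∀ (γ : ℝ → M) (G : (ℝ →ᵇ M) → ℝ →ᵇ M) (l : List (ℝ →ᵇ M)), n ≤ l.length →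
    (∀ w ∈ l, w ∈ P a q u ∧ (∀ σ : ℝ, σ ≤ c → G w σ = γ σ) ∧
      ∀ σ : ℝ, c ≤ σ → G w σ = w (σ - c)) →
    VV n τ.f g r p N (u + c) (l.map G) = N929.stp n τ.f r (1 / ((N : ℝ) + 1)) p g (l.map (rv u))

end Vale.Agent.P216.H140
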